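import Vale.Agent.P192.H479.RL4

/-!
# P192: products of an interval and a free action
-/

namespace Vale.Agent.P192.H479

/-- the finiteness of the image depends on the kernel only -/
theorem finite_range_of_ker {G H H' : Type} [Group G] [Group H] [Group H'] (φ : G →* H)
    (ψ : G →* H') (hφ : Finite φ.range) (h : ∀ g, φ g = 1 → ψ g = 1) : Finite ψ.range := by
  have h1 : φ.ker.FiniteIndex := by
    have : Finite (G ⧸ φ.ker) :=
      Finite.of_equiv _ (QuotientGroup.quotientKerEquivRange φ).symm.toEquiv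
    exact Subgroup.finiteIndex_of_finite_quotient
  exact finite_range_of_index ψ φ.ker h1 (fun g hg => h g hg)

/-- conjugation -/
def cj {A B : Type} (E : A ≃ B) : Equiv.Perm A →* Equiv.Perm B where
  toFun p := (E.symm.trans p).trans E
  map_one' := by
    apply Equiv.ext
    intro x
    change E (E.symm x) = x
    exact E.apply_symm_apply x
  map_mul' p q := by
    apply Equiv.ext
    intro x
    change E (p (q (E.symm x))) = E (p (E.symm (E (q (E.symm x)))))
    rw [E.symm_apply_apply]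

theorem cj_apply {A B : Type} (E : A ≃ B) (p : Equiv.Perm A) (x : B) :
    cj E p x = E (p (E.symm x)) := rfl

theorem finite_of_cj {G A B : Type} [Group G] (E : A ≃ B) (φ : G →* Equiv.Perm A)
    (h : Finite ((cj E).comp φ).range) : Finite φ.range := by
  refine finite_range_of_ker ((cj E).comp φ) φ h (fun g hg => ?_)
  apply Equiv.ext
  intro x
  have h1 : cj E (φ g) (E x) = E x := by
    change ((cj E).comp φ) g (E x) = E x
    rw [hg]
    rfl
  rw [cj_apply, E.symm_apply_apply] at h1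
  exact E.injective h1

/-- finite groups are virtually free -/
theorem vfree_fin (Q : Type) [Group Q] [Finite Q] :
    ∃ (Γ : Subgroup Q) (k : ℕ), Γ.FiniteIndex ∧ Nonempty (Γ ≃* FreeGroup (Fin k)) := by
  have : Unique (FreeGroup (Fin 0)) := inferInstance
  exact ⟨⊥, 0, inferInstance, ⟨MulEquiv.ofUnique⟩⟩

/-- free groups of finite rank are virtually free -/
theorem vfree_free (R : Type) [Finite R] :
    ∃ (Γ : Subgroup (FreeGroup R)) (k : ℕ), Γ.FiniteIndex ∧
      Nonempty (Γ ≃* FreeGroup (Fin k)) := by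
  obtain ⟨n, ⟨e⟩⟩ := Finite.exists_equiv_fin R
  exact ⟨⊤, n, inferInstance, ⟨Subgroup.topEquiv.trans (FreeGroup.freeGroupCongr e)⟩⟩

theorem gen_finite {R : Set ℝ} (hR : R.Finite) : {w : FreeGroup R | ∃ r, w = RD.gen R r}.Finite := by
  have : Finite R := hR
  refine ((Set.finite_range (FreeGroup.of : R → FreeGroup R)).insert 1).subset ?_
  rintro w ⟨r, rfl⟩
  by_cases h : r ∈ R
  · right
    exact ⟨⟨r, h⟩, by unfold RD.gen; rw [dif_pos h]⟩
  · left
    unfold RD.gen
    rw [dif_neg h]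

theorem wd_finite {V : Type} {R : Set ℝ} (hR : R.Finite) (pos : ℤ → V → ℝ) (n : ℕ) :
    {w : FreeGroup R | ∃ v, w = RD.wd R pos v n}.Finite := by
  induction n with
  | zero =>
    refine (gen_finite hR).subset ?_
    rintro w ⟨v, rfl⟩
    exact ⟨_, rfl⟩
  | succ n ih =>
    refine (ih.image2 (fun a b => a * b) (gen_finite hR)).subset ?_
    rintro w ⟨v, rfl⟩
    exact ⟨_, ⟨v, rfl⟩, _, ⟨_, rfl⟩, rfl⟩

theorem W_finite {V : Type} {R : Set ℝ} (hR : R.Finite) (pos : ℤ → V → ℝ) (N : ℤ) :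
    {w : FreeGroup R | ∃ k v, 0 ≤ k ∧ k < N ∧ w = RD.W R pos k v}.Finite := by
  have h : (⋃ n ∈ Set.Iio N.toNat, {w : FreeGroup R | ∃ v, w = RD.wd R pos v n}).Finite :=
    (Set.finite_Iio N.toNat).biUnion (fun n _ => wd_finite hR pos n)
  refine h.subset ?_
  rintro w ⟨k, v, h0, h1, rfl⟩
  refine Set.mem_iUnion₂.2 ⟨k.toNat, ?_, ⟨v, rfl⟩⟩
  rw [Set.mem_Iio]
  omega

/-- **Products of an interval and a free action of a group of asymptotic dimension at most one.** -/
theorem A2 (hTwo : Two) (G : Type) [Group G] [Group.IsFinitelyPresented G]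
    (hG : ∀ x : G, IsOfFinOrder x) (L : Type) [Group L]
    (hL : ∀ E : Set L, E.Finite → ∃ m : ℕ, ∃ C : Set L, ∀ x : L,
      {y | Relation.ReflTransGen (fun a b => (a ∈ C ↔ b ∈ C) ∧ ∃ e ∈ E, b = e * a) x y}.encard ≤ m)
    (U : Type) [MulAction L U] (hU : ∀ (l : L) (u : U), l • u = u → l = 1) (lam : ℝ)
    (ρ : G →* Equiv.Perm (ℝ × U)) (hρ : ∀ g, Gd L lam (ρ g)) : Finite ρ.range := by
  classical
  have hout : ∀ g x u, x ∉ Set.Ico 0 lam → ρ g (x, u) = (x, u) := fun g => (hρ g).1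
  rcases le_or_gt lam 0 with hlam | hlam
  · have h1 : ∀ g, ρ g = 1 := by
      intro g
      apply Equiv.ext
      rintro ⟨x, u⟩
      refine hout g x u ?_
      rintro ⟨h2, h3⟩
      linarith
    have : Subsingleton ρ.range := by
      refine ⟨?_⟩
      rintro ⟨_, g, rfl⟩ ⟨_, g', rfl⟩
      apply Subtype.ext
      change ρ g = ρ g'
      rw [h1, h1]
    infer_instance
  obtain ⟨M, hMf, hM1, hMinv, hgen, htab⟩ := H260.exists_table G
  choose B K T hB hK hT hpt using fun g => (hρ g).2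
  obtain ⟨D, hDM, hDL, hDρ⟩ := exists_RD M hMf hM1 lam hlam ρ hout (⋃ a ∈ M, B a) (⋃ a ∈ M, T a)
    (hMf.biUnion fun a _ => hB a) (hMf.biUnion fun a _ => hT a) (by
      intro a ha v x h0 h1
      obtain ⟨l, hl, t, ht, h⟩ := hpt a v x h0 h1
      exact ⟨t, Set.mem_biUnion ha ht, l • v, fun y hy0 hy1 hb =>
        h y hy0 hy1 (fun b hbB => hb b (Set.mem_biUnion ha hbB))⟩)
  subst hDM hDL hDρ
  let K₀ : Set L := insert 1 (⋃ a ∈ D.M, K a)
  have hK₀ : K₀.Finite := (hMf.biUnion fun a _ => hK a).insert 1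
  have hact2 : ∀ a ∈ D.M, ∀ k, 0 ≤ k → ∀ u, ∃ l ∈ K₀, D.act2 a k u = l • u := by
    intro a ha k hk u
    obtain ⟨l, hl, t, ht, h⟩ := hpt a u (D.p k) (D.p_ge hk).1 (D.p_ge hk).2
    refine ⟨l, Set.mem_insert_of_mem _ (Set.mem_biUnion ha hl), ?_⟩
    unfold RD.act2
    rw [h (D.p k) (D.p_ge hk).1 (D.p_ge hk).2 (fun b _ => Iff.rfl)]
  have hνL : 0 < D.ν D.L := by
    rw [← D.ν0]
    exact D.ν_lt (D.ZC0 _ D.C0) D.ZL D.hL
  -- the mixed model
  have hmix : ∀ Ψ0 : G →* Equiv.Perm (D.Pt × U), (∀ a ∈ D.M, ∀ z, Ψ0 a z = D.φ0 a z) →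
      Finite Ψ0.range := by
    intro Ψ0 h0
    have hne : Nonempty D.Pt := ⟨⟨0, le_rfl, hνL⟩⟩
    let _ : Fintype D.Pt := Fintype.ofFinite _
    have hn : NeZero (Fintype.card D.Pt) := ⟨Fintype.card_ne_zero⟩
    let Q : Type := Multiplicative (ZMod (Fintype.card D.Pt))
    have hQf : Finite Q := inferInstanceAs (Finite (ZMod (Fintype.card D.Pt)))
    let e : D.Pt ≃ Q := (Fintype.equivOfCardEq (by rw [ZMod.card])).trans
      (Multiplicative.ofAdd (α := ZMod (Fintype.card D.Pt)))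
    let E : (D.Pt × U) ≃ (U × Q) := (Equiv.prodComm _ _).trans ((Equiv.refl U).prodCongr e)
    refine finite_of_cj E Ψ0 ?_
    refine hTwo G hG D.M hgen hMinv L Q hL (vfree_fin Q) U Q hU ?_ _ K₀ Set.univ hK₀
      Set.finite_univ Q id ?_
    · intro x v h
      exact mul_eq_right.1 h
    · intro a ha u i
      obtain ⟨l, hl, h⟩ := hact2 a ha (e.symm i).1 (e.symm i).2.1 u
      refine ⟨l, hl, e (D.φ0 a (e.symm i, u)).1 * i⁻¹, Set.mem_univ _, ?_⟩
      rintro v rfl
      change E (Ψ0 a (E.symm (u, v))) = _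
      have e1 : E.symm (u, v) = (e.symm v, u) := rfl
      rw [e1, h0 a ha]
      refine Prod.ext ?_ ?_
      · change (D.φ0 a (e.symm v, u)).2 = l • u
        rw [(D.φ0_M ha _).2]
        exact h
      · change e (D.φ0 a (e.symm v, u)).1 = e (D.φ0 a (e.symm v, u)).1 * v⁻¹ * v
        rw [inv_mul_cancel_right]
  obtain ⟨Ψ0, Ψ, h0, h1, hΨ, hb, hfin⟩ := D.exists_mixed hG hgen htab hmix
  let _ : Fintype Ψ.range := Fintype.ofFinite _
  have hTT : ∀ a ∈ D.M, ∀ x v, 0 ≤ x → x < D.L → (D.ρ a (x, v)).1 - x ∈ ⋃ a ∈ D.M, T a := by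
    intro a ha x v hx0 hx1
    obtain ⟨l, hl, t, ht, h⟩ := hpt a v x hx0 hx1
    rw [h x hx0 hx1 (fun b _ => Iff.rfl)]
    refine Set.mem_biUnion ha ?_
    change x + t - x ∈ T a
    rwa [add_sub_cancel_left]
  have hf := D.finite_tr hgen Ψ h1 hΨ _ (hMf.biUnion fun a _ => hT a) hTT
  obtain ⟨R, hRf, hR0, hR1⟩ := D.exists_R Ψ hνL (RD.finite_avg Ψ hf)
  have hpos := D.pos_spec Ψ h1 hΨ
  obtain ⟨Φ, hΦ, hΦρ⟩ := D.exists_lift R hpos hgen htab
  have hRfin : Finite R := hRf
  let _ := Iet.fact (RD.tau R)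
  let E : ((ℝ × FreeGroup R) × U) ≃ (U × (ℝ × FreeGroup R)) := Equiv.prodComm _ _
  let KM : Set (FreeGroup R) := insert 1 (Set.image2 (fun x y => x * y⁻¹)
    {w : FreeGroup R | ∃ k v, 0 ≤ k ∧ k < D.ν D.L ∧ w = RD.W R (D.pos Ψ) k v}
    {w : FreeGroup R | ∃ k v, 0 ≤ k ∧ k < D.ν D.L ∧ w = RD.W R (D.pos Ψ) k v})
  have hKM : KM.Finite := ((W_finite hRf _ _).image2 _ (W_finite hRf _ _)).insert 1
  let b : (ℝ × FreeGroup R) → Option D.Pt := fun z =>
    if h : 0 ≤ z.1 ∧ z.1 < D.L then some ⟨D.kk z.1, D.kk_ge h⟩ else none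
  have hrange : Finite ((cj E).comp Φ).range := by
    refine hTwo G hG D.M hgen hMinv L (FreeGroup R) hL (vfree_free R) U (ℝ × FreeGroup R) hU ?_ _
      K₀ KM hK₀ hKM (Option D.Pt) b ?_
    · intro f z hz
      have h1 : f * z.2 = z.2 := congrArg Prod.snd hz
      exact mul_eq_right.1 h1
    · intro a ha u i
      rcases i with _ | k
      · refine ⟨1, Set.mem_insert _ _, 1, Set.mem_insert _ _, fun z hz => ?_⟩
        have hz' : ¬ (0 ≤ z.1 ∧ z.1 < D.L) := by
          intro h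
          change dite _ _ _ = none at hz
          rw [dif_pos h] at hz
          exact Option.some_ne_none _ hz
        rw [one_smul, one_smul]
        change E (Φ a (z, u)) = (u, z)
        rw [hΦ a ha, D.φ2_of' R _ (z, u) hz']
        rfl
      · obtain ⟨l, hl, h⟩ := hact2 a ha k.1 k.2.1 u
        refine ⟨l, hl, D.cc R (D.pos Ψ) a k.1 u, ?_, fun z hz => ?_⟩
        · refine Set.mem_insert_of_mem _ ⟨_, ⟨_, _, (D.act_ge k.2.1 k.2.2 ha u).1,
            (D.act_ge k.2.1 k.2.2 ha u).2, rfl⟩, _, ⟨_, _, k.2.1, k.2.2, rfl⟩, rfl⟩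
        · have hz' : 0 ≤ z.1 ∧ z.1 < D.L := by
            by_contra h
            change dite _ _ _ = some k at hz
            rw [dif_neg h] at hz
            exact Option.some_ne_none _ hz.symm
          have hk : D.kk z.1 = k.1 := by
            change dite _ _ _ = some k at hz
            rw [dif_pos hz'] at hz
            exact congrArg Subtype.val (Option.some.inj hz)
          change E (Φ a (z, u)) = _
          rw [hΦ a ha, D.φ2_of R _ (z, u) hz']
          refine Prod.ext ?_ (Prod.ext ?_ ?_)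
          · change (D.ρ a (z.1, u)).2 = l • u
            rw [← h, ← hk, D.act2_kk hz' ha]
          · change (D.ρ a (z.1, u)).1 = z.1 + (RD.tau R (D.cc R (D.pos Ψ) a k.1 u)).toAdd
            rw [← hk, D.tau_cc R hpos hR0 hR1 hz' ha u]
          · change D.cc R (D.pos Ψ) a (D.kk z.1) u * z.2 = D.cc R (D.pos Ψ) a k.1 u * z.2
            rw [hk]
  have hΦf : Finite Φ.range := finite_of_cj E Φ hrange
  refine finite_range_of_ker Φ D.ρ hΦf (fun g hg => ?_)
  apply Equiv.ext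
  rintro ⟨x, u⟩
  have h := hΦρ g ((x, 1), u)
  rw [hg] at h
  exact h.symm

end Vale.Agent.P192.H479
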