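import Mathlib

/-!
# P192: piecewise isometries: definitions
-/

namespace Vale.Agent.P192.H479

/-- `x` and `x'` have the same position relative to the points of `B`: they are the same point of
`B` or lie in the same component of the complement of `B` -/
def CellK {𝕜 : Type} [LinearOrder 𝕜] (B : Finset 𝕜) (x x' : 𝕜) : Prop :=
  ∀ b ∈ B, (b < x ↔ b < x') ∧ (x < b ↔ x' < b)

end Vale.Agent.P192.H479
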