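import Vale.Agent.P192.H794.F.G3
import Vale.Agent.P192.H479.StmtCell

/-!
# P192: piecewise isometries of the plane: the uniform theorem
-/

namespace Vale.Agent.P192.H479.U

open Filter Vale.Agent.P192.PMUnif Vale.Agent.P192.H794.F
open Vale.Agent.P192.H479 (finite_of_cj cj cj_apply CellK)

/-- the theorem for one action on the plane -/
def IsoTwo (𝕜 : Type) [Field 𝕜] [LinearOrder 𝕜] : Prop :=
  ∀ (G : Type) [Group G] [Group.IsFinitelyPresented G], (∀ x : G, IsOfFinOrder x) →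
    ∀ (S : Set G), Subgroup.closure S = ⊤ →
    ∀ (k : ℕ) (W : Fin k → Type) (T : ∀ i, Equiv.Perm (W i))
      (ρ : G →* Equiv.Perm (𝕜 × (∀ i, W i) × 𝕜)),
      (∀ s ∈ S, ∃ (m : ℕ) (c : ∀ i, W i → Fin m) (B : Finset 𝕜)
        (K : Set (𝕜 × (Fin k → ℤ) × 𝕜)), K.Finite ∧
        ∀ (x : 𝕜) (w : ∀ i, W i) (y : 𝕜), ∃ q ∈ K, ∃ e d : 𝕜, |e| = 1 ∧ |d| = 1 ∧
          ((∀ x', CellK B x x' → ∀ w' : ∀ i, W i, (∀ i, c i (w i) = c i (w' i)) →
              ∀ y', CellK B y y' →
            ρ s (x', w', y') = (e * x' + q.1, fun i => (T i ^ q.2.1 i) (w' i), d * y' + q.2.2)) ∨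
           (∀ x', CellK B x x' → ∀ w' : ∀ i, W i, (∀ i, c i (w i) = c i (w' i)) →
              ∀ y', CellK B y y' →
            ρ s (x', w', y') = (e * y' + q.1, fun i => (T i ^ q.2.1 i) (w' i), d * x' + q.2.2)))) →
      Finite ρ.range

/-- a system of generators acting on `𝕜 × W 0 × ... × W (k - 1) × 𝕜` -/
structure SysP2 (G : Type) [Group G] (S : Set G) (k m : ℕ) (Z₀ : Set (Fin k → ℤ)) where
  𝕜 : Type
  [i1 : Field 𝕜]
  [i2 : LinearOrder 𝕜]
  [i3 : IsStrictOrderedRing 𝕜]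
  W : Fin k → Type
  T : ∀ i, Equiv.Perm (W i)
  ρ : G →* Equiv.Perm (𝕜 × (∀ i, W i) × 𝕜)
  pw : ∀ s ∈ S, ∃ (c : ∀ i, W i → Fin m) (B R : Finset 𝕜), B.card ≤ m ∧ R.card ≤ m ∧
    ∀ (x : 𝕜) (w : ∀ i, W i) (y : 𝕜), ∃ z ∈ Z₀, ∃ r ∈ R, ∃ t ∈ R, ∃ e d : 𝕜, |e| = 1 ∧ |d| = 1 ∧
      ((∀ x', CellK B x x' → ∀ w' : ∀ i, W i, (∀ i, c i (w i) = c i (w' i)) →
          ∀ y', CellK B y y' →
        ρ s (x', w', y') = (e * x' + r, fun i => (T i ^ z i) (w' i), d * y' + t)) ∨
       (∀ x', CellK B x x' → ∀ w' : ∀ i, W i, (∀ i, c i (w i) = c i (w' i)) →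
          ∀ y', CellK B y y' →
        ρ s (x', w', y') = (e * y' + r, fun i => (T i ^ z i) (w' i), d * x' + t)))

attribute [instance] SysP2.i1 SysP2.i2 SysP2.i3

/-- signs -/
def sgK {𝕜 : Type} [Field 𝕜] (b : Bool) : 𝕜 := if b then 1 else -1

theorem abs_sgK {𝕜 : Type} [Field 𝕜] [LinearOrder 𝕜] [IsStrictOrderedRing 𝕜] (b : Bool) :
    |(sgK b : 𝕜)| = 1 := by
  cases b <;> simp [sgK]

theorem exists_sgK {𝕜 : Type} [Field 𝕜] [LinearOrder 𝕜] [IsStrictOrderedRing 𝕜] {e : 𝕜}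
    (h : |e| = 1) : ∃ b, e = sgK b := by
  rcases eq_or_eq_neg_of_abs_eq h with rfl | rfl
  · exact ⟨true, rfl⟩
  · exact ⟨false, rfl⟩

section tools

variable {ι : Type} (U : Ultrafilter ι) {K : ι → Type} [∀ i, Field (K i)]

theorem mk_sgK (b : Bool) : (mk U fun i => (sgK b : K i)) = (sgK b : UP U K) := by
  cases b <;> rfl

theorem mk_lin (b : Bool) (x r : ∀ i, K i) :
    (mk U fun i => sgK b * x i + r i) = (sgK b : UP U K) * mk U x + mk U r := by
  rw [← mk_sgK]
  rfl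

variable [∀ i, LinearOrder (K i)]

/-- points in one cell -/
theorem cell_ev {n : ℕ} (β : ∀ i, Fin n → K i) (x y : ∀ i, K i)
    (h : ∀ j, (mk U (fun i => β i j) < mk U x ↔ mk U (fun i => β i j) < mk U y) ∧
      (mk U x < mk U (fun i => β i j) ↔ mk U y < mk U (fun i => β i j))) :
    ∀ᶠ i in (U : Filter ι), ∀ j, (β i j < x i ↔ β i j < y i) ∧ (x i < β i j ↔ y i < β i j) := by
  rw [eventually_all]
  intro j
  exact (ev_iff U ((mk_lt U).symm.trans ((h j).1.trans (mk_lt U)))).and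
    (ev_iff U ((mk_lt U).symm.trans ((h j).2.trans (mk_lt U))))

end tools

/-- the eight isometries -/
def mv {𝕜 : Type} [Field 𝕜] (o e d : Bool) (r t x y : 𝕜) : 𝕜 × 𝕜 :=
  if o then (sgK e * y + r, sgK d * x + t) else (sgK e * x + r, sgK d * y + t)

/-- **The ultraproduct of systems has finite image.** -/
theorem ultra_iso_two
    (hP2 : ∀ (𝕜 : Type) [Field 𝕜] [LinearOrder 𝕜] [IsStrictOrderedRing 𝕜], IsoTwo 𝕜)
    (G : Type) [Group G] [Group.IsFinitelyPresented G]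
    (hG : ∀ x : G, IsOfFinOrder x) (S : Set G) (hS : Subgroup.closure S = ⊤)
    (k m : ℕ) (Z₀ : Set (Fin k → ℤ)) (hZ₀ : Z₀.Finite)
    {ι : Type} (D : ι → SysP2 G S k m Z₀) (U : Ultrafilter ι) :
    Finite (act U (fun i => (D i).ρ)).range := by
  classical
  let K : ι → Type := fun i => (D i).𝕜
  let _ : ∀ i, Field (K i) := fun i => (D i).i1
  let _ : ∀ i, LinearOrder (K i) := fun i => (D i).i2
  have hso : ∀ i, IsStrictOrderedRing (K i) := fun i => (D i).i3
  let W : ι → Fin k → Type := fun i => (D i).W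
  let T' : ∀ j, Equiv.Perm (UP U (fun i => W i j)) := fun j => powUP U fun i => (D i).T j
  refine finite_of_cj (splitE U (V := K) (W := W) (K := K)) _ ?_
  set ρ' := (cj (splitE U (V := K) (W := W) (K := K))).comp (act U fun i => (D i).ρ) with hρ'
  have hmk : ∀ (g : G) (a : ∀ i, K i) (b : ∀ j, ∀ i, W i j) (c : ∀ i, K i),
      ρ' g (mk U a, fun j => mk U (b j), mk U c) =
        splitE U (mk U fun i => (D i).ρ g (a i, fun j => b j i, c i)) := by
    intro g a b c
    change splitE U (act U (fun i => (D i).ρ) g ((splitE U).symm _)) = _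
    rw [splitE_symm, act_mk]
  refine hP2 (UP U K) G hG S hS k (fun j => UP U fun i => W i j) T' ρ' ?_
  intro s hs
  choose c B R hB hR hpw using fun i => (D i).pw s hs
  choose β hβ using fun i => H794.F.exists_enum (0 : K i) (B i) (hB i)
  choose r hr using fun i => H794.F.exists_enum (0 : K i) (R i) (hR i)
  refine ⟨m, fun j y => col U m (map1 U (fun i => c i j) y),
    Finset.univ.image fun t => mk U fun i => β i t,
    (fun p : (Fin k → ℤ) × Fin (m + 1) × Fin (m + 1) =>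
      (mk U fun i => r i p.2.1, p.1, mk U fun i => r i p.2.2)) ''
      (Z₀ ×ˢ Set.univ), (hZ₀.prod Set.finite_univ).image _, ?_⟩
  intro x w y
  obtain ⟨x, rfl⟩ := exists_mk U x
  choose b hb using fun j => exists_mk U (w j)
  obtain rfl : (fun j => mk U (b j)) = w := funext hb
  obtain ⟨y, rfl⟩ := exists_mk U y
  have h1 : ∀ᶠ i in (U : Filter ι), ∃ z ∈ Z₀,
      ∃ p : (Fin (m + 1) × Fin (m + 1)) × (Bool × Bool × Bool),
      ∀ x', CellK (B i) (x i) x' →
      ∀ w' : ∀ j, W i j, (∀ j, c i j (b j i) = c i j (w' j)) →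
      ∀ y', CellK (B i) (y i) y' →
        (D i).ρ s (x', w', y') =
          ((mv p.2.1 p.2.2.1 p.2.2.2 (r i p.1.1) (r i p.1.2) x' y').1,
            fun j => ((D i).T j ^ z j) (w' j),
            (mv p.2.1 p.2.2.1 p.2.2.2 (r i p.1.1) (r i p.1.2) x' y').2) := by
    refine Eventually.of_forall fun i => ?_
    obtain ⟨z, hz, t₁, ht₁, t₂, ht₂, e, d, he, hd, h2⟩ := hpw i (x i) (fun j => b j i) (y i)
    obtain ⟨t₁', ht₁'⟩ := hr i t₁ ht₁
    obtain ⟨t₂', ht₂'⟩ := hr i t₂ ht₂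
    obtain ⟨e', rfl⟩ := exists_sgK he
    obtain ⟨d', rfl⟩ := exists_sgK hd
    rcases h2 with h2 | h2
    · refine ⟨z, hz, ((t₁', t₂'), (false, e', d')), ?_⟩
      intro x' hx' w' hw' y' hy'
      rw [ht₁', ht₂']
      exact h2 x' hx' w' hw' y' hy'
    · refine ⟨z, hz, ((t₁', t₂'), (true, e', d')), ?_⟩
      intro x' hx' w' hw' y' hy'
      rw [ht₁', ht₂']
      exact h2 x' hx' w' hw' y' hy'
  rw [Ultrafilter.eventually_exists_mem_iff hZ₀] at h1
  obtain ⟨z, hz, h1⟩ := h1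
  rw [Ultrafilter.eventually_exists_iff] at h1
  obtain ⟨⟨t, o, e, d⟩, h1⟩ := h1
  refine ⟨_, ⟨(z, t), ⟨hz, trivial⟩, rfl⟩, sgK e, sgK d, abs_sgK e, abs_sgK d, ?_⟩
  have key : ∀ x' : UP U K, CellK (Finset.univ.image fun t => mk U fun i => β i t) (mk U x) x' →
      ∀ w' : ∀ j, UP U (fun i => W i j),
      (∀ j, col U m (map1 U (fun i => c i j) (mk U (b j))) =
        col U m (map1 U (fun i => c i j) (w' j))) →
      ∀ y' : UP U K, CellK (Finset.univ.image fun t => mk U fun i => β i t) (mk U y) y' →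
      ρ' s (x', w', y') =
        ((mv o e d (mk U fun i => r i t.1) (mk U fun i => r i t.2) x' y').1,
          fun j => (T' j ^ z j) (w' j),
          (mv o e d (mk U fun i => r i t.1) (mk U fun i => r i t.2) x' y').2) := by
    intro x' hband w' hw' y' hband'
    obtain ⟨x', rfl⟩ := exists_mk U x'
    choose b' hb' using fun j => exists_mk U (w' j)
    obtain rfl : (fun j => mk U (b' j)) = w' := funext hb'
    obtain ⟨y', rfl⟩ := exists_mk U y'
    have h3 : ∀ᶠ i in (U : Filter ι), ∀ j, c i j (b j i) = c i j (b' j i) := by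
      rw [eventually_all]
      intro j
      exact (mk_eq U).1 (col_inj U (hw' j))
    have h5 := cell_ev U β x x' fun t => hband _ (Finset.mem_image_of_mem _ (Finset.mem_univ t))
    have h5' := cell_ev U β y y' fun t => hband' _ (Finset.mem_image_of_mem _ (Finset.mem_univ t))
    rw [hmk]
    have h6 : (mk U fun i => (D i).ρ s (x' i, fun j => b' j i, y' i)) =
        mk U fun i => ((mv o e d (r i t.1) (r i t.2) (x' i) (y' i)).1,
          fun j => ((D i).T j ^ z j) (b' j i),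
          (mv o e d (r i t.1) (r i t.2) (x' i) (y' i)).2) := by
      rw [mk_eq]
      filter_upwards [h1, h3, h5, h5'] with i e1 e3 e5 e5'
      refine e1 _ ?_ _ e3 _ ?_
      · intro b hb
        obtain ⟨t, rfl⟩ := hβ i b hb
        exact e5 t
      · intro b hb
        obtain ⟨t, rfl⟩ := hβ i b hb
        exact e5' t
    rw [h6, splitE_mk]
    refine Prod.ext ?_ (Prod.ext ?_ ?_)
    · cases o
      · exact mk_lin U e x' fun i => r i t.1
      · exact mk_lin U e y' fun i => r i t.1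
    · funext j
      exact (powUP_zpow U (fun i => (D i).T j) (z j) (b' j)).symm
    · cases o
      · exact mk_lin U d y' fun i => r i t.2
      · exact mk_lin U d x' fun i => r i t.2
  cases o
  · exact Or.inl fun x' hx' w' hw' y' hy' => key x' hx' w' hw' y' hy'
  · exact Or.inr fun x' hx' w' hw' y' hy' => key x' hx' w' hw' y' hy'

/-- **Piecewise isometries of the plane with counters: the uniform theorem.** -/
theorem unif_iso_two
    (hP2 : ∀ (𝕜 : Type) [Field 𝕜] [LinearOrder 𝕜] [IsStrictOrderedRing 𝕜], IsoTwo 𝕜)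
    (G : Type) [Group G] [Group.IsFinitelyPresented G]
    (hG : ∀ x : G, IsOfFinOrder x) (S : Set G) (hS : Subgroup.closure S = ⊤)
    (k m : ℕ) (Z₀ : Set (Fin k → ℤ)) (hZ₀ : Z₀.Finite) :
    ∃ N : Subgroup G, N.Normal ∧ N.FiniteIndex ∧ ∀ D : SysP2 G S k m Z₀, ∀ g ∈ N, D.ρ g = 1 := by
  by_contra hcon
  push Not at hcon
  have h1 : ∀ N : Idx G, ∃ D : SysP2 G S k m Z₀, ∃ g ∈ N.1, D.ρ g ≠ 1 :=
    fun N => hcon N.1 N.2.1 N.2.2
  choose D g hg hne using h1
  have hfg : Group.FG G := by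
    obtain ⟨n, φ, hφ, -⟩ := (inferInstance : Group.IsFinitelyPresented G)
    exact Group.fg_of_surjective hφ
  exact scheme hfg _ (fun i => (D i).ρ) g hg hne
    (fun U => ultra_iso_two hP2 G hG S hS k m Z₀ hZ₀ D U)

end Vale.Agent.P192.H479.U
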