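import Vale.Agent.P192.H479.RL11

/-!
# P192: products with whole lines
-/

namespace Vale.Agent.P192.H479

open Vale.Agent.P192.RL5 Vale.Agent.P192.H237

variable {L U : Type} [Group L] [MulAction L U] {k : ℕ} {W : Fin k → Type}

/-- **Products of a free action of a group of asymptotic dimension at most one, counters and the
line.** -/
theorem A2L (hPie : PieG) (hThr : Thr) (G : Type) [Group G] [Group.IsFinitelyPresented G]
    (hG : ∀ x : G, IsOfFinOrder x)
    (hL : ∀ E : Set L, E.Finite → ∃ m : ℕ, ∃ C : Set L, ∀ x : L,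
      {y | Relation.ReflTransGen (fun a b => (a ∈ C ↔ b ∈ C) ∧ ∃ e ∈ E, b = e * a) x y}.encard ≤ m)
    (hU : ∀ (l : L) (u : U), l • u = u → l = 1) (T : ∀ i, Equiv.Perm (W i))
    (ρ : G →* Equiv.Perm (ℝ × (U × (∀ i, W i))))
    (hPw : ∀ g, (regLine.prod (FUW L U T)).Pw (ρ g)) : Finite ρ.range := by
  classical
  obtain ⟨M, hMf, hM1, hMinv, hgen, htab⟩ := H260.exists_table G
  refine line (FUW L U T) hG M hMf hgen htab (fun v => ⟨trivial, trivial⟩) ρ hPw ?_ ?_
  · intro σ hσ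
    let QG : Type := Multiplicative (ZMod 1)
    have hQf : Finite QG := inferInstanceAs (Finite (ZMod 1))
    have hQs : Subsingleton QG := inferInstanceAs (Subsingleton (ZMod 1))
    let E : (U × (∀ i, W i)) ≃ (QG × (U × (∀ i, W i))) :=
      { toFun := fun z => (1, z)
        invFun := fun z => z.2
        left_inv := fun z => rfl
        right_inv := fun z => Prod.ext (Subsingleton.elim _ _) rfl }
    refine finite_of_cj E σ ?_
    refine thr_reg hThr G hG M hMf hgen hMinv hL hU T QG (vfree_fin QG) QG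
      (fun x v h => mul_eq_right.1 h) _ QG id Set.univ Set.finite_univ ?_
    intro a _
    obtain ⟨r, hr, Q, hQ, h2⟩ := hσ a
    refine ⟨r, hr, Q, hQ, fun v j => ?_⟩
    obtain ⟨q, hq, h3⟩ := h2 v ⟨trivial, trivial⟩
    refine ⟨q, hq, 1, Set.mem_univ _, fun v' hvv z hz => ?_⟩
    change E (σ a v') = _
    rw [(h3 v' ⟨trivial, trivial⟩ hvv).1]
    exact Prod.ext (Subsingleton.elim _ _) rfl
  · intro lam σ hout hσ
    exact A2k hPie hThr G hG hL hU T lam σ hout hσ

/-- the pieces of `ℝ × (W 0 × ... × W (k - 1))` -/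
noncomputable abbrev FLW {k : ℕ} {W : Fin k → Type} (T : ∀ i, Equiv.Perm (W i)) :
    Reg (prodAct trans (actW T)) {z : ℝ × (∀ i, W i) | z.1 ∈ Set.univ ∧ z.2 ∈ Set.univ} :=
  regLine.prod (regW T)

/-- `A2L` for generators and for the order `tree, line, counters` -/
theorem line_reg (hPie : PieG) (hThr : Thr) {k : ℕ} {W : Fin k → Type} (G : Type) [Group G]
    [Group.IsFinitelyPresented G] (hG : ∀ x : G, IsOfFinOrder x) (M₀ : Set G)
    (hgen : Subgroup.closure M₀ = ⊤) (T : ∀ i, Equiv.Perm (W i))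
    (M : Type) [Group M]
    (hM : ∃ (Γ : Subgroup M) (k : ℕ), Γ.FiniteIndex ∧ Nonempty (Γ ≃* FreeGroup (Fin k)))
    (V' : Type) [MulAction M V'] (hV : ∀ (x : M) (v : V'), x • v = v → x = 1)
    (Φ : G →* Equiv.Perm (V' × (ℝ × (∀ i, W i)))) (β : Type) (b : V' → β)
    (KM : Set M) (hKM : KM.Finite)
    (h : ∀ a ∈ M₀, ∃ r ∈ (FLW T).R, ∃ Q : Set (Multiplicative ℝ × (Fin k → Multiplicative ℤ)),
      Q.Finite ∧ ∀ v : ℝ × (∀ i, W i), ∀ j : β, ∃ q ∈ Q, ∃ x ∈ KM,
        ∀ v' : ℝ × (∀ i, W i), r v v' → ∀ z, b z = j →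
          Φ a (z, v') = (x • z, prodAct trans (actW T) q v')) :
    Finite Φ.range := by
  classical
  let E : (V' × (ℝ × (∀ i, W i))) ≃ (ℝ × (V' × (∀ i, W i))) :=
    { toFun := fun z => (z.2.1, z.1, z.2.2)
      invFun := fun z => (z.2.1, z.1, z.2.2)
      left_inv := fun z => rfl
      right_inv := fun z => rfl }
  refine finite_of_cj E Φ ?_
  have hPw := Reg.Pw.all (F := regLine.prod (FUW M V' T)) hgen ((cj E).comp Φ)
    (fun a _ z => ⟨fun _ => ⟨trivial, trivial, trivial⟩, fun _ => ⟨trivial, trivial, trivial⟩⟩) (by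
    intro a ha
    obtain ⟨r, hr, Q, hQ, h2⟩ := h a ha
    obtain ⟨_, ⟨B, rfl⟩, _, ⟨m, c, rfl⟩, rfl⟩ := hr
    refine ⟨_, ⟨Band B, ⟨B, rfl⟩, _, ⟨_, rfl, _, ⟨m, c, rfl⟩, rfl⟩, rfl⟩,
      Set.image2 (fun (q : Multiplicative ℝ × (Fin k → Multiplicative ℤ)) (x : M) =>
        (q.1, (x, q.2))) Q KM, hQ.image2 _ hKM, ?_⟩
    rintro ⟨x, z, w⟩ -
    obtain ⟨q, hq, y, hy, h3⟩ := h2 (x, w) (b z)
    refine ⟨_, ⟨q, hq, y, hy, rfl⟩, ?_⟩
    rintro ⟨x', z', w'⟩ - ⟨h4, h5, h6⟩
    have h5 : z = z' := h5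
    subst h5
    have h7 := h3 (x', w') ⟨h4, h6⟩ z rfl
    refine ⟨?_, trivial, trivial, trivial⟩
    change E (Φ a (z, (x', w'))) = _
    rw [h7]
    rfl)
  exact A2L hPie hThr G hG (twocol_of_vfree M hM) hV T _ hPw.2

/-- **Products of an interval, the line and counters.** -/
theorem AIL (hPie : PieG) (hThr : Thr) {k : ℕ} {W : Fin k → Type} (G : Type) [Group G]
    [Group.IsFinitelyPresented G] (hG : ∀ x : G, IsOfFinOrder x)
    (T : ∀ i, Equiv.Perm (W i)) (lam : ℝ)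
    (ρ : G →* Equiv.Perm (ℝ × (ℝ × (∀ i, W i))))
    (hout : ∀ g x v, x ∉ Set.Ico 0 lam → ρ g (x, v) = (x, v))
    (hPw : ∀ g, ((regReal lam).prod (FLW T)).Pw (ρ g)) : Finite ρ.range := by
  classical
  rcases le_or_gt lam 0 with hlam | hlam
  · have h1 : ∀ g, ρ g = 1 := by
      intro g
      apply Equiv.ext
      rintro ⟨x, u⟩
      refine hout g x u ?_
      rintro ⟨h2, h3⟩
      linarith
    have : Subsingleton ρ.range := by
      refine ⟨?_⟩
      rintro ⟨_, g, rfl⟩ ⟨_, g', rfl⟩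
      apply Subtype.ext
      change ρ g = ρ g'
      rw [h1, h1]
    infer_instance
  obtain ⟨M, hMf, hM1, hMinv, hgen, htab⟩ := H260.exists_table G
  obtain ⟨R, hRf, Φ, β, hβ, b, KM, hKM, hΦρ, hΦM, -⟩ := lift_gen hPie hG M hMf hM1 hgen htab lam
    hlam (FLW T) ρ (fun g x v h => hout g x v (by
      rcases h with h | h
      · exact h
      · exact absurd ⟨trivial, trivial⟩ h)) (fun a _ => hPw a) (by
    intro P _ _ Ψ0 h1 _
    let _ : Fintype P := Fintype.ofFinite _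
    have hn : NeZero (Fintype.card P) := ⟨Fintype.card_ne_zero⟩
    let QG : Type := Multiplicative (ZMod (Fintype.card P))
    have hQf : Finite QG := inferInstanceAs (Finite (ZMod (Fintype.card P)))
    let e : P ≃ QG := (Fintype.equivOfCardEq (by rw [ZMod.card])).trans
      (Multiplicative.ofAdd (α := ZMod (Fintype.card P)))
    let E : (P × (ℝ × (∀ i, W i))) ≃ (QG × (ℝ × (∀ i, W i))) := e.prodCongr (Equiv.refl _)
    refine finite_of_cj E Ψ0 ?_
    refine line_reg hPie hThr G hG M hgen T QG (vfree_fin QG) QG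
      (fun x v h => mul_eq_right.1 h) _ QG id Set.univ Set.finite_univ ?_
    intro a ha
    obtain ⟨r, hr, Q, hQ, h2⟩ := h1 a ha
    refine ⟨r, hr, Q, hQ, fun v j => ?_⟩
    obtain ⟨q, hq, p', h3⟩ := h2 (e.symm j) v ⟨trivial, trivial⟩
    refine ⟨q, hq, e p' * j⁻¹, Set.mem_univ _, fun v' hvv z hz => ?_⟩
    have hz : z = j := hz
    subst hz
    change E (Ψ0 a (e.symm z, v')) = _
    rw [(h3 v' ⟨trivial, trivial⟩ hvv).1]
    refine Prod.ext ?_ rfl
    change e p' = e p' * z⁻¹ * z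
    rw [inv_mul_cancel_right])
  have hRfin : Finite R := hRf
  let _ := Iet.fact (RD.tau R)
  have hΦf : Finite Φ.range := by
    refine line_reg hPie hThr G hG M hgen T (FreeGroup R) (vfree_free R)
      (ℝ × FreeGroup R) ?_ Φ β b KM hKM ?_
    · intro f z hz
      have h1 : f * z.2 = z.2 := congrArg Prod.snd hz
      exact mul_eq_right.1 h1
    · intro a ha
      obtain ⟨r, hr, Q, hQ, h2⟩ := hΦM a ha
      refine ⟨r, hr, Q, hQ, fun v j => ?_⟩
      obtain ⟨q, hq, x, hx, h3⟩ := h2 v ⟨trivial, trivial⟩ j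
      refine ⟨q, hq, x, hx, fun v' hvv z hz => ?_⟩
      exact (h3 v' ⟨trivial, trivial⟩ hvv z hz).1
  exact finite_range_of_ker Φ ρ hΦf hΦρ

/-- **Products of two lines and counters.** -/
theorem A1L (hPie : PieG) (hThr : Thr) {k : ℕ} {W : Fin k → Type} (G : Type) [Group G]
    [Group.IsFinitelyPresented G] (hG : ∀ x : G, IsOfFinOrder x)
    (T : ∀ i, Equiv.Perm (W i)) (ρ : G →* Equiv.Perm (ℝ × (ℝ × (∀ i, W i))))
    (hPw : ∀ g, (regLine.prod (FLW T)).Pw (ρ g)) : Finite ρ.range := by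
  classical
  obtain ⟨M, hMf, hM1, hMinv, hgen, htab⟩ := H260.exists_table G
  refine line (FLW T) hG M hMf hgen htab (fun v => ⟨trivial, trivial⟩) ρ hPw ?_ ?_
  · intro σ hσ
    let QG : Type := Multiplicative (ZMod 1)
    have hQf : Finite QG := inferInstanceAs (Finite (ZMod 1))
    have hQs : Subsingleton QG := inferInstanceAs (Subsingleton (ZMod 1))
    let E : (ℝ × (∀ i, W i)) ≃ (QG × (ℝ × (∀ i, W i))) :=
      { toFun := fun z => (1, z)
        invFun := fun z => z.2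
        left_inv := fun z => rfl
        right_inv := fun z => Prod.ext (Subsingleton.elim _ _) rfl }
    refine finite_of_cj E σ ?_
    refine line_reg hPie hThr G hG M hgen T QG (vfree_fin QG) QG
      (fun x v h => mul_eq_right.1 h) _ QG id Set.univ Set.finite_univ ?_
    intro a _
    obtain ⟨r, hr, Q, hQ, h2⟩ := hσ a
    refine ⟨r, hr, Q, hQ, fun v j => ?_⟩
    obtain ⟨q, hq, h3⟩ := h2 v ⟨trivial, trivial⟩
    refine ⟨q, hq, 1, Set.mem_univ _, fun v' hvv z hz => ?_⟩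
    change E (σ a v') = _
    rw [(h3 v' ⟨trivial, trivial⟩ hvv).1]
    exact Prod.ext (Subsingleton.elim _ _) rfl
  · intro lam σ hout hσ
    exact AIL hPie hThr G hG T lam σ hout hσ

end Vale.Agent.P192.H479
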