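import Mathlib

/-! Definitions used in the statement of the hand-in. -/

namespace Vale.Agent.P192.H479

/-- no element of `B` separates `x` and `y` -/
def Same (B : Finset ℝ) (x y : ℝ) : Prop := ∀ b ∈ B, b ≤ x ↔ b ≤ y

end Vale.Agent.P192.H479
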