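import Vale.Agent.P192.H479.Q0
import Vale.Agent.P192.H567.Counters

set_option linter.all false

/-! Products of an action of asymptotic dimension at most one, a free action of a virtually free
group and any number of counters. -/

namespace Vale.Agent.P192.H479.Q

open Vale.Agent.P192 Vale.Agent.P192.H593 Vale.Agent.P192.H437 Vale.Agent.P192.H567

/-- products of two free actions and `k` counters -/
def clsQ (L M : Type) [Group L] [Group M] (δ : Set L → ℕ) (k : ℕ) : Cls (L × (Fin k → Multiplicative ℤ) × M) where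
  C := fun m => Fin m × (Fin k → Fin m) × Fin m
  fin := fun m => inferInstance
  P := fun m Y _ b => ∃ (U V : Type) (_ : MulAction L U) (_ : MulAction M V) (W : Fin k → Type)
    (T : ∀ i, Equiv.Perm (W i)) (e : Y ≃ U × (∀ i, W i) × V) (α : U → Fin m)
    (a : ∀ i, W i → Fin m) (β : V → Fin m),
    QC L U δ ∧ (∀ (x : M) (v : V), x • v = v → x = 1) ∧
    (∀ (l : L × (Fin k → Multiplicative ℤ) × M) (y : Y), e (l • y) = (l.1 • (e y).1,
      fun i => (T i ^ (l.2.1 i).toAdd) ((e y).2.1 i), l.2.2 • (e y).2.2)) ∧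
    ∀ y, b y = (α (e y).1, fun i => a i ((e y).2.1 i), β (e y).2.2)
  ref := by
    classical
    intro m S hS
    haveI : Finite S := hS
    let ε : (S → Fin m) ≃ Fin (Nat.card (S → Fin m)) := Finite.equivFin _
    refine ⟨Nat.card (S → Fin m), ?_⟩
    rintro Y _ b ⟨U, V, _, _, W, T, e, α, a, β, hU, hV, he, hb⟩
    refine ⟨fun y => (ε (fun t => α (t.1.1 • (e y).1)),
      fun i => ε (fun t => a i ((T i ^ (t.1.2.1 i).toAdd) ((e y).2.1 i))),
      ε (fun t => β (t.1.2.2 • (e y).2.2))),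
      ⟨U, V, _, _, W, T, e, fun u => ε (fun t => α (t.1.1 • u)),
        fun i w => ε (fun t => a i ((T i ^ (t.1.2.1 i).toAdd) w)),
        fun v => ε (fun t => β (t.1.2.2 • v)), hU, hV, he, fun _ => rfl⟩, ?_⟩
    intro x y hxy t ht
    have h1 := congrFun (ε.injective (congrArg Prod.fst hxy)) ⟨t, ht⟩
    have h2 := fun i => congrFun (ε.injective (congrFun (congrArg
      (fun q : Fin (Nat.card (S → Fin m)) × (Fin k → Fin (Nat.card (S → Fin m))) ×
        Fin (Nat.card (S → Fin m)) => q.2.1) hxy) i)) ⟨t, ht⟩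
    have h3 := congrFun (ε.injective (congrArg
      (fun q : Fin (Nat.card (S → Fin m)) × (Fin k → Fin (Nat.card (S → Fin m))) ×
        Fin (Nat.card (S → Fin m)) => q.2.2) hxy)) ⟨t, ht⟩
    rw [hb, hb, he, he]
    exact Prod.ext h1 (Prod.ext (funext h2) h3)

theorem uf_zeroQ (L M : Type) [Group L] [Group M]
    (δ : Set L → ℕ)
    (Γ : Subgroup M) [Γ.FiniteIndex] (k : ℕ) (e : Γ ≃* FreeGroup (Fin k)) : UF (clsQ L M δ 0) := by
  intro G _ _ hG MM σ hσ n m K hK
  obtain ⟨N, h1, h2, h3⟩ := vf_uniformQ G hG σ hσ L M δ Γ k e n m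
    ((fun x => (x.1, x.2.2)) '' K) (hK.image _)
  refine ⟨N, h1, h2, ?_⟩
  rintro I _ hI Y _ b ⟨U, V, _, _, W, T, e, α, a, β, hU, hV, he, hb⟩ f hf ρ hρ g hg
  let E : I × Y ≃ I × U × V :=
    { toFun := fun q => (q.1, (e q.2).1, (e q.2).2.2)
      invFun := fun q => (q.1, e.symm (q.2.1, fun i => i.elim0, q.2.2))
      left_inv := by
        rintro ⟨i, y⟩
        refine Prod.ext rfl ?_
        apply e.injective
        show e (e.symm ((e y).1, fun i => i.elim0, (e y).2.2)) = e y
        rw [Equiv.apply_symm_apply]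
        exact Prod.ext rfl (Prod.ext (funext fun i => i.elim0) rfl)
      right_inv := by
        rintro ⟨i, u, v⟩
        simp }
  obtain ⟨ρ', h4, h5⟩ := exists_conj E ρ
  apply h5
  refine h3 I hI U V hU hV ρ' ?_ g hg
  intro l
  refine ⟨β, fun i u γ => ((f l i (α u, fun i => i.elim0, γ)).1,
    (f l i (α u, fun i => i.elim0, γ)).2.1, (f l i (α u, fun i => i.elim0, γ)).2.2.2), ?_, ?_⟩
  · intro i u γ
    exact ⟨_, hf l i (α u, fun i => i.elim0, γ), rfl⟩
  · intro i u v
    obtain ⟨q, hq⟩ := E.surjective (i, u, v)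
    obtain ⟨i', y⟩ := q
    have e1 : i' = i := congrArg Prod.fst hq
    have e2 : (e y).1 = u := congrArg (fun q : I × U × V => q.2.1) hq
    have e3 : (e y).2.2 = v := congrArg (fun q : I × U × V => q.2.2) hq
    have e4 : b y = (α u, fun i => i.elim0, β v) := by
      rw [hb, e2, e3]
      exact Prod.ext rfl (Prod.ext (funext fun i => i.elim0) rfl)
    rw [← hq, h4, hρ, e1, e4]
    show (_, (e _).1, (e _).2.2) = _
    rw [he, e2, e3]

theorem uf_succQ (L M : Type) [Group L] [Group M] (δ : Set L → ℕ) (k : ℕ) (h : UF (clsQ L M δ k)) :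
    UF (clsQ L M δ (k + 1)) := by
  intro G _ _ hG MM σ hσ n m K hK
  obtain ⟨N, h1, h2, h3⟩ := stepZ (clsQ L M δ k) h G hG σ hσ n m (Fin m)
    ((fun x => ((x.2.1 0).toAdd, (x.1, (fun i : Fin k => x.2.1 i.succ), x.2.2))) '' K)
    (hK.image _)
  refine ⟨N, h1, h2, ?_⟩
  rintro I _ hI Y _ b ⟨U, V, _, _, W, T, e, α, a, β, hU, hV, he, hb⟩ f hf ρ hρ g hg
  letI act : MulAction (L × (Fin k → Multiplicative ℤ) × M) (U × (∀ i : Fin k, W i.succ) × V) :=
    { smul := fun l y => (l.1 • y.1, fun i => (T i.succ ^ (l.2.1 i).toAdd) (y.2.1 i), l.2.2 • y.2.2)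
      one_smul := by
        rintro ⟨u, w, v⟩
        show ((1 : L) • u, fun i => (T i.succ ^ (0 : ℤ)) (w i), (1 : M) • v) = _
        simp
      mul_smul := by
        rintro ⟨l, z, x⟩ ⟨l', z', x'⟩ ⟨u, w, v⟩
        show ((l * l') • u, fun i => (T i.succ ^ (z i * z' i).toAdd) (w i), (x * x') • v) =
          (l • l' • u, fun i => (T i.succ ^ (z i).toAdd) ((T i.succ ^ (z' i).toAdd) (w i)),
            x • x' • v)
        rw [mul_smul, mul_smul]
        refine Prod.ext rfl (Prod.ext (funext fun i => ?_) rfl)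
        show (T i.succ ^ (z i * z' i).toAdd) (w i) = _
        rw [toAdd_mul, zpow_add]; rfl }
  have hact : ∀ (l : L × (Fin k → Multiplicative ℤ) × M) (y : U × (∀ i : Fin k, W i.succ) × V),
      l • y = (l.1 • y.1, fun i => (T i.succ ^ (l.2.1 i).toAdd) (y.2.1 i), l.2.2 • y.2.2) :=
    fun _ _ => rfl
  let b' : U × (∀ i : Fin k, W i.succ) × V → Fin m × (Fin k → Fin m) × Fin m := fun y =>
    (α y.1, fun i => a i.succ (y.2.1 i), β y.2.2)
  let E : I × Y ≃ I × W 0 × (U × (∀ i : Fin k, W i.succ) × V) :=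
    { toFun := fun q => (q.1, (e q.2).2.1 0, ((e q.2).1, fun i => (e q.2).2.1 i.succ, (e q.2).2.2))
      invFun := fun q => (q.1, e.symm (q.2.2.1, Fin.cons q.2.1 q.2.2.2.1, q.2.2.2.2))
      left_inv := by
        rintro ⟨i, y⟩
        refine Prod.ext rfl ?_
        apply e.injective
        show e (e.symm ((e y).1, Fin.cons ((e y).2.1 0) (fun i => (e y).2.1 i.succ), (e y).2.2)) =
          e y
        rw [Equiv.apply_symm_apply]
        refine Prod.ext rfl (Prod.ext (funext fun i => ?_) rfl)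
        refine Fin.cases ?_ (fun i => ?_) i
        · rfl
        · rfl
      right_inv := by
        rintro ⟨i, w, u, w', v⟩
        simp }
  obtain ⟨ρ', h4, h5⟩ := exists_conj E ρ
  apply h5
  let cc : Fin m → Fin m × (Fin k → Fin m) × Fin m → Fin m × (Fin (k + 1) → Fin m) × Fin m :=
    fun x γ => (γ.1, Fin.cons x γ.2.1, γ.2.2)
  refine h3 I hI (W 0) (T 0) (U × (∀ i : Fin k, W i.succ) × V) b' ?_ (a 0)
    (fun l i x γ => ((f l i (cc x γ)).1, ((f l i (cc x γ)).2.2.1 0).toAdd,
      ((f l i (cc x γ)).2.1, (fun i' : Fin k => (f l i (cc x γ)).2.2.1 i'.succ),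
        (f l i (cc x γ)).2.2.2))) ?_ ρ' ?_ g hg
  · exact ⟨U, V, _, _, fun i => W i.succ, fun i => T i.succ, Equiv.refl _, α, fun i => a i.succ, β,
      hU, hV, fun _ _ => rfl, fun _ => rfl⟩
  · intro l i x γ
    exact ⟨_, hf l i (cc x γ), rfl⟩
  · intro l i w y
    obtain ⟨q, hq⟩ := E.surjective (i, w, y)
    obtain ⟨i', y'⟩ := q
    have e1 : i' = i := congrArg Prod.fst hq
    have e2 : (e y').2.1 0 = w := congrArg (fun q : I × W 0 × _ => q.2.1) hq
    have e3 : ((e y').1, (fun i : Fin k => (e y').2.1 i.succ), (e y').2.2) = y :=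
      congrArg (fun q : I × W 0 × _ => q.2.2) hq
    have e4 : b y' = cc (a 0 w) (b' y) := by
      rw [hb, ← e2, ← e3]
      refine Prod.ext rfl (Prod.ext (funext fun i => ?_) rfl)
      refine Fin.cases ?_ (fun i => ?_) i
      · rfl
      · rfl
    rw [← hq, h4, hρ, e1, e4]
    show (_, (e _).2.1 0, ((e _).1, (fun i : Fin k => (e _).2.1 i.succ), (e _).2.2)) = _
    rw [he]
    generalize cc (a 0 w) (b' y) = γ
    subst e2 e3
    rfl

/-- uniform finiteness for products of two free actions and `k` counters -/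
theorem uf_allQ (L M : Type) [Group L] [Group M]
    (δ : Set L → ℕ)
    (Γ : Subgroup M) [Γ.FiniteIndex] (k₀ : ℕ) (e : Γ ≃* FreeGroup (Fin k₀)) (k : ℕ) :
    UF (clsQ L M δ k) := by
  induction k with
  | zero => exact uf_zeroQ L M δ Γ k₀ e
  | succ k ih => exact uf_succQ L M δ k ih

end Vale.Agent.P192.H479.Q
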