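import Mathlib

/-!
# P192: actions of asymptotic dimension at most one
-/

namespace Vale.Agent.P192.H479

/-- The `L`-set `U` has asymptotic dimension at most one, in the form of two-colourings: for each
finite set `E` there is a two-colouring of `U` for which the classes under monochromatic steps
`a ↦ e • a`, `e` in `E`, have boundedly many points. -/
def QCe (L U : Type) [Group L] [MulAction L U] : Prop :=
  ∀ E : Set L, E.Finite → ∃ (m : ℕ) (C : Set U), ∀ x : U,
    {y | Relation.ReflTransGen (fun a b => (a ∈ C ↔ b ∈ C) ∧ ∃ e ∈ E, b = e • a) x y}.encard ≤ m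

/-- `QCe` with the bounds `δ E` -/
def Q.QC (L U : Type) [Group L] [MulAction L U] (δ : Set L → ℕ) : Prop :=
  ∀ E : Set L, E.Finite → ∃ C : Set U, ∀ x : U,
    {y | Relation.ReflTransGen (fun a b => (a ∈ C ↔ b ∈ C) ∧ ∃ e ∈ E, b = e • a) x y}.encard ≤ δ E

end Vale.Agent.P192.H479
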