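import Vale.Agent.P192.H630.Free
import Vale.Agent.P192.H479.StmtQ

/-!
# P192: graphs of bounded degree as sets with a group action
-/

namespace Vale.Agent.P192.H479.Q

open Vale.Agent.P192

/-- **Greedy colourings.** -/
theorem greedy {X : Type} (R : X → X → Prop) (D : ℕ) (hR : ∀ x, {y | R x y}.encard ≤ (D : ℕ∞)) :
    ∃ χ : X → Fin (D + 1), ∀ x y, R x y → R y x → x ≠ y → χ x ≠ χ y := by
  classical
  let r : X → X → Prop := WellOrderingRel
  have wf : WellFounded r := IsWellFounded.wf
  let F : ∀ x, (∀ y, r y x → Fin (D + 1)) → Fin (D + 1) := fun x ih =>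
    if h : ∃ a : Fin (D + 1), ∀ y (hy : r y x), R x y → ih y hy ≠ a then h.choose else 0
  let χ : X → Fin (D + 1) := wf.fix F
  have hχ : ∀ x y, r y x → R x y → χ y ≠ χ x := by
    intro x
    have h : ∃ a : Fin (D + 1), ∀ y (_ : r y x), R x y → χ y ≠ a := by
      by_contra hcon
      push Not at hcon
      have h1 : (Set.univ : Set (Fin (D + 1))) ⊆ χ '' {y | R x y} := by
        intro a _
        obtain ⟨y, _, h2, h3⟩ := hcon a
        exact ⟨y, h2, h3⟩
      have h2 := (Set.encard_le_encard h1).trans ((Set.encard_image_le _ _).trans (hR x))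
      rw [Set.encard_univ, ENat.card_eq_coe_fintype_card, Fintype.card_fin] at h2
      have h3 : D + 1 ≤ D := by exact_mod_cast h2
      omega
    have h4 : χ x = h.choose := by
      change wf.fix F x = _
      rw [wf.fix_eq]
      exact dif_pos h
    intro y hy hR'
    rw [h4]
    exact h.choose_spec y hy hR'
  refine ⟨χ, fun x y h1 h2 hxy => ?_⟩
  rcases trichotomous_of r x y with h | h | h
  · exact hχ y x h h2
  · exact absurd h hxy
  · exact (hχ x y h h1).symm

/-- a symmetric partial matching is part of an involution -/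
theorem exists_inv {X : Type} (Q : X → X → Prop) (hs : ∀ x y, Q x y → Q y x)
    (hu : ∀ x y z, Q x y → Q x z → y = z) :
    ∃ π : Equiv.Perm X, (∀ x y, Q x y → π x = y) ∧ ∀ x, π x = x ∨ Q x (π x) := by
  classical
  let f : X → X := fun x => if h : ∃ y, Q x y then h.choose else x
  have h1 : ∀ x y, Q x y → f x = y := by
    intro x y h
    have h2 : ∃ y, Q x y := ⟨y, h⟩
    change dite _ _ _ = _
    rw [dif_pos h2]
    exact hu x _ _ h2.choose_spec h
  have h2 : ∀ x, f x = x ∨ Q x (f x) := by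
    intro x
    by_cases h : ∃ y, Q x y
    · obtain ⟨y, hy⟩ := h
      right
      rw [h1 x y hy]
      exact hy
    · left
      exact dif_neg h
  have hinv : Function.Involutive f := by
    intro x
    rcases h2 x with h | h
    · rw [h, h]
    · exact h1 _ _ (hs _ _ h)
  exact ⟨hinv.toPerm f, h1, h2⟩

/-- **Graphs of bounded degree and asymptotic dimension at most one** as sets with an action of a
free group. -/
theorem graph_L (Δ c : ℕ) (δ : ℕ → ℕ) :
    ∃ (q : ℕ) (δ' : Set (FreeGroup (Fin q × Fin q)) → ℕ) (K : Set (FreeGroup (Fin q × Fin q))),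
      K.Finite ∧ ∀ (X : Type) (Γ : SimpleGraph X), (∀ x, (Γ.neighborSet x).encard ≤ Δ) →
        (∀ r : ℕ, ∃ C : Set X, ∀ x, {y | Relation.ReflTransGen
          (fun a b => (a ∈ C ↔ b ∈ C) ∧ Γ.edist a b ≤ r) x y}.encard ≤ δ r) →
        ∃ _ : MulAction (FreeGroup (Fin q × Fin q)) X, QC (FreeGroup (Fin q × Fin q)) X δ' ∧
          ∀ x x', Γ.edist x x' ≤ c → ∃ l ∈ K, l • x = x' := by
  classical
  let D : ℕ := (Δ + 1) ^ (c + c)
  let q : ℕ := D + 1
  let L : Type := FreeGroup (Fin q × Fin q)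
  let ρE : Set L → ℕ := fun E => if h : E.Finite then h.toFinset.sup fun e => c * e.toWord.length
    else 0
  refine ⟨q, fun E => δ (ρE E), insert 1 (Set.range FreeGroup.of),
    (Set.finite_range _).insert 1, ?_⟩
  intro X Γ hΔ hC
  have hball : ∀ (n : ℕ) (x : X), {y | Γ.edist x y ≤ n}.encard ≤ (((Δ + 1) ^ n : ℕ) : ℕ∞) := by
    intro n x
    refine le_trans (Set.encard_le_encard ?_) (H630.near_card Γ Δ hΔ n x)
    intro y hy
    exact H630.walk_of_edist hy
  obtain ⟨χ, hχ⟩ := greedy (fun x y => Γ.edist x y ≤ ((c + c : ℕ) : ℕ∞)) D (hball (c + c))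
  have hsep : ∀ x y z, Γ.edist x y ≤ c → Γ.edist x z ≤ c → χ y = χ z → y = z := by
    intro x y z h1 h2 h3
    by_contra hne
    have h4 : Γ.edist y z ≤ ((c + c : ℕ) : ℕ∞) := by
      refine (Γ.edist_triangle (v := x)).trans ?_
      rw [Nat.cast_add]
      refine add_le_add ?_ h2
      rw [SimpleGraph.edist_comm]
      exact h1
    have h5 : Γ.edist z y ≤ ((c + c : ℕ) : ℕ∞) := by
      rw [SimpleGraph.edist_comm]
      exact h4
    exact hχ y z h4 h5 hne h3
  -- the involutions
  let Q : Fin q × Fin q → X → X → Prop := fun p x y => Γ.edist x y ≤ c ∧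
    ((χ x = p.1 ∧ χ y = p.2) ∨ (χ x = p.2 ∧ χ y = p.1))
  have hQ : ∀ p, ∃ π : Equiv.Perm X, (∀ x y, Q p x y → π x = y) ∧ ∀ x, π x = x ∨ Q p x (π x) := by
    intro p
    refine exists_inv (Q p) ?_ ?_
    · rintro x y ⟨h1, h2⟩
      refine ⟨by rw [SimpleGraph.edist_comm]; exact h1, ?_⟩
      rcases h2 with h2 | h2
      · exact Or.inr ⟨h2.2, h2.1⟩
      · exact Or.inl ⟨h2.2, h2.1⟩
    · rintro x y z ⟨h1, h2⟩ ⟨h3, h4⟩
      refine hsep x y z h1 h3 ?_
      rcases h2 with ⟨a1, a2⟩ | ⟨a1, a2⟩ <;> rcases h4 with ⟨b1, b2⟩ | ⟨b1, b2⟩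
      · rw [a2, b2]
      · rw [a2, b2, ← b1, a1]
      · rw [a2, b2, ← b1, a1]
      · rw [a2, b2]
  choose π hπ1 hπ2 using hQ
  let φ : L →* Equiv.Perm X := FreeGroup.lift π
  refine ⟨MulAction.compHom X φ, ?_, ?_⟩
  · -- the bound for the displacement
    have hmove1 : ∀ p x, Γ.edist x (π p x) ≤ c := by
      intro p x
      rcases hπ2 p x with h | h
      · rw [h, SimpleGraph.edist_self]
        exact zero_le
      · exact h.1
    have hmove2 : ∀ p x, Γ.edist x ((π p)⁻¹ x) ≤ c := by
      intro p x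
      have h1 := hmove1 p ((π p)⁻¹ x)
      have h2 : π p ((π p)⁻¹ x) = x := by
        rw [← Equiv.Perm.mul_apply, mul_inv_cancel]
        rfl
      rw [h2, SimpleGraph.edist_comm] at h1
      exact h1
    have hword : ∀ (w : List ((Fin q × Fin q) × Bool)) (x : X),
        Γ.edist x (φ (FreeGroup.mk w) x) ≤ ((c * w.length : ℕ) : ℕ∞) := by
      intro w
      induction w with
      | nil =>
        intro x
        have h1 : φ (FreeGroup.mk []) = 1 := map_one φ
        rw [h1, Equiv.Perm.one_apply, SimpleGraph.edist_self]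
        exact zero_le
      | cons l w ih =>
        intro x
        have h1 : φ (FreeGroup.mk (l :: w)) = φ (FreeGroup.mk [l]) * φ (FreeGroup.mk w) := by
          rw [← map_mul, FreeGroup.mul_mk]
          rfl
        rw [h1, Equiv.Perm.mul_apply, List.length_cons, Nat.mul_succ, Nat.cast_add]
        refine (Γ.edist_triangle (v := φ (FreeGroup.mk w) x)).trans (add_le_add (ih x) ?_)
        obtain ⟨p, ε⟩ := l
        cases ε
        · have h2 : φ (FreeGroup.mk [(p, false)]) = (π p)⁻¹ := by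
            have h3 : (FreeGroup.mk [(p, false)] : L) = (FreeGroup.of p)⁻¹ := rfl
            rw [h3, map_inv]
            exact congrArg _ (FreeGroup.lift_apply_of)
          rw [h2]
          exact hmove2 p _
        · have h2 : φ (FreeGroup.mk [(p, true)]) = π p := FreeGroup.lift_apply_of
          rw [h2]
          exact hmove1 p _
    intro E hE
    obtain ⟨C, hC'⟩ := hC (ρE E)
    refine ⟨C, fun x => (Set.encard_le_encard ?_).trans (hC' x)⟩
    intro y hy
    refine Relation.ReflTransGen.mono ?_ _ _ hy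
    rintro a b ⟨h1, e, he, rfl⟩
    refine ⟨h1, ?_⟩
    have h2 := hword e.toWord a
    rw [FreeGroup.mk_toWord] at h2
    refine le_trans h2 ?_
    have h3 : c * e.toWord.length ≤ ρE E := by
      change _ ≤ dite _ _ _
      rw [dif_pos hE]
      exact Finset.le_sup (f := fun e : L => c * e.toWord.length) (hE.mem_toFinset.2 he)
    exact_mod_cast h3
  · intro x x' hxx
    refine ⟨FreeGroup.of (χ x, χ x'), Or.inr ⟨_, rfl⟩, ?_⟩
    change φ (FreeGroup.of (χ x, χ x')) x = x'
    have h2 : φ (FreeGroup.of (χ x, χ x')) = π (χ x, χ x') := FreeGroup.lift_apply_of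
    rw [h2]
    exact hπ1 _ _ _ ⟨hxx, Or.inl ⟨rfl, rfl⟩⟩

end Vale.Agent.P192.H479.Q
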