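import Vale.Agent.P192.H479.Q6
import Vale.Agent.P192.H479.Q7

/-!
# P192: graphs of bounded degree and asymptotic dimension at most one, counters, piecewise isometries
of a line: the uniform theorem
-/

namespace Vale.Agent.P192.QF

open Vale.Agent.P192.H479.Q (QC graph_L)
open Vale.Agent.P192.H479 (CellK)

/-- **Graph of asymptotic dimension at most one, counters, piecewise isometries of a line: the
uniform theorem.** -/
theorem unif_graph (G : Type) [Group G] [Group.IsFinitelyPresented G]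
    (hG : ∀ x : G, IsOfFinOrder x) (S : Set G) (hS : Subgroup.closure S = ⊤)
    (k m c Δ : ℕ) (δ : ℕ → ℕ) (K : Set (Fin k → ℤ)) (hK : K.Finite) :
    ∃ N : Subgroup G, N.Normal ∧ N.FiniteIndex ∧
      ∀ (𝕜 : Type) [Field 𝕜] [LinearOrder 𝕜] [IsStrictOrderedRing 𝕜]
        (X : Type) (Γ : SimpleGraph X), (∀ x, (Γ.neighborSet x).encard ≤ Δ) →
        (∀ r : ℕ, ∃ C : Set X, ∀ x, {y | Relation.ReflTransGen
          (fun a b => (a ∈ C ↔ b ∈ C) ∧ Γ.edist a b ≤ r) x y}.encard ≤ δ r) →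
        ∀ (W : Fin k → Type) (T : ∀ i, Equiv.Perm (W i))
          (ρ : G →* Equiv.Perm (X × (∀ i, W i) × 𝕜)),
          (∀ s ∈ S, ∃ (a : ∀ i, W i → Fin m) (B R : Finset 𝕜), B.card ≤ m ∧ R.card ≤ m ∧
            ∀ (v : X) (w : ∀ i, W i) (x : 𝕜), ∃ v' : X, Γ.edist v v' ≤ c ∧
              ∃ z ∈ K, ∃ t ∈ R, ∃ e : 𝕜, |e| = 1 ∧
                ∀ w' : ∀ i, W i, (∀ i, a i (w i) = a i (w' i)) → ∀ x' : 𝕜, CellK B x x' →
                  ρ s (v, w', x') = (v', fun i => (T i ^ z i) (w' i), e * x' + t)) →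
          ∀ g ∈ N, ρ g = 1 := by
  obtain ⟨q, δ', KL, hKL, hL⟩ := graph_L Δ c δ
  obtain ⟨N, h1, h2, h3⟩ := unif_lineQ G hG S hS (FreeGroup (Fin q × Fin q)) δ' k m (KL ×ˢ K)
    (hKL.prod hK)
  refine ⟨N, h1, h2, ?_⟩
  intro 𝕜 _ _ _ X Γ hΔ hC W T ρ hρ g hg
  obtain ⟨inst, hQ, hmove⟩ := hL X Γ hΔ hC
  refine h3 𝕜 X hQ W T ρ ?_ g hg
  intro s hs
  obtain ⟨a, B, R, hB, hR, h4⟩ := hρ s hs
  refine ⟨a, B, R, hB, hR, fun v w x => ?_⟩
  obtain ⟨v', hv, z, hz, t, ht, e, he, h5⟩ := h4 v w x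
  obtain ⟨l, hl, hlv⟩ := hmove v v' hv
  refine ⟨(l, z), ⟨hl, hz⟩, t, ht, e, he, fun w' hw x' hx => ?_⟩
  rw [h5 w' hw x' hx, hlv]

end Vale.Agent.P192.QF
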