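import Vale.Agent.P192.H176.Wd5
import Vale.Agent.P192.H479.Q9

/-!
# P192: heads on a graph of bounded degree and asymptotic dimension at most one, counters, piecewise
isometries of a line: the uniform theorem, heads on any set with a permutation
-/

namespace Vale.Agent.P192.QF

open Vale.Agent.P192.H479.Q (QC graph_L)
open Vale.Agent.P192.H479 (CellK)
open Vale.Agent.P192.H176.Hd (UnifP hlW_uniformS)

/-- **Heads, graph of asymptotic dimension at most one, counters, piecewise isometries of a line: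
the uniform theorem.** -/
theorem headsW_graphS (G : Type) [Group G] [Group.IsFinitelyPresented G]
    (hG : ∀ x : G, IsOfFinOrder x) (S : Set G) (hS : Subgroup.closure S = ⊤)
    (k₀ k m r c Δ : ℕ) (δ : ℕ → ℕ) (K : Set ((Fin k₀ → ℤ) × (Fin k → ℤ))) (hK : K.Finite) :
    ∃ N : Subgroup G, N.Normal ∧ N.FiniteIndex ∧
      ∀ (𝕜 : Type) [Field 𝕜] [LinearOrder 𝕜] [IsStrictOrderedRing 𝕜]
        (X : Type) (Γ : SimpleGraph X), (∀ x, (Γ.neighborSet x).encard ≤ Δ) →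
        (∀ r : ℕ, ∃ C : Set X, ∀ x, {y | Relation.ReflTransGen
          (fun a b => (a ∈ C ↔ b ∈ C) ∧ Γ.edist a b ≤ r) x y}.encard ≤ δ r) →
        ∀ (W : Fin k₀ → Type) (T : ∀ i, Equiv.Perm (W i)) (Z : Type) (τ : Equiv.Perm Z)
          (ρ : G →* Equiv.Perm ((X × (∀ i, W i) × 𝕜) × (Fin k → Z))),
          (∀ s ∈ S, ∃ (b : ∀ i, W i → Fin m) (a : Fin k → Z → Fin m)
            (B R : Finset 𝕜), B.card ≤ m ∧ R.card ≤ m ∧
            ∀ (v : X) (w : ∀ i, W i) (x : 𝕜) (z : Fin k → Z), ∃ v' : X, Γ.edist v v' ≤ c ∧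
              ∃ q ∈ K, ∃ t ∈ R, ∃ e : 𝕜, |e| = 1 ∧
                ∀ w' : ∀ i, W i, (∀ i, b i (w i) = b i (w' i)) → ∀ x' : 𝕜, CellK B x x' →
                  ∀ z' : Fin k → Z, (∀ j, a j (z j) = a j (z' j)) →
                  (∀ (i j : Fin k) (d : ℤ), |d| ≤ r →
                    ((τ ^ d) (z i) = z j ↔ (τ ^ d) (z' i) = z' j)) →
                  ρ s ((v, w', x'), z') =
                    ((v', fun i => (T i ^ q.1 i) (w' i), e * x' + t),
                      fun j => (τ ^ q.2 j) (z' j))) →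
          ∀ g ∈ N, ρ g = 1 := by
  obtain ⟨q₀, δ', KL, hKL, hL⟩ := graph_L Δ c δ
  obtain ⟨N, h1, h2, h3⟩ := hlW_uniformS (FreeGroup (Fin q₀ × Fin q₀)) _
    (unifP_QC (FreeGroup (Fin q₀ × Fin q₀)) δ') G hG S hS k₀ k m r (KL ×ˢ K) (hKL.prod hK)
  refine ⟨N, h1, h2, ?_⟩
  intro 𝕜 _ _ _ X Γ hΔ hC W T Z τ ρ hρ g hg
  obtain ⟨inst, hQ, hmove⟩ := hL X Γ hΔ hC
  refine h3 𝕜 X hQ W T Z τ ρ ?_ g hg
  intro s hs
  obtain ⟨b, a, B, R, hB, hR, h4⟩ := hρ s hs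
  refine ⟨b, a, B, R, hB, hR, fun v w x z => ?_⟩
  obtain ⟨v', hv, q, hq, t, ht, e, he, h5⟩ := h4 v w x z
  obtain ⟨l, hl, hlv⟩ := hmove v v' hv
  refine ⟨(l, q.1, q.2), ⟨hl, hq⟩, t, ht, e, he, fun w' hw x' hx z' hz hn => ?_⟩
  rw [h5 w' hw x' hx z' hz hn, hlv]

end Vale.Agent.P192.QF
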