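import Vale.Agent.P192.H479.Q1

set_option linter.all false

/-! Products of an action of asymptotic dimension at most one, a free action and any number of
counters: uniform form. -/

namespace Vale.Agent.P192.H479.Q

open Vale.Agent.P192 Vale.Agent.P192.H593 Vale.Agent.P192.H437 Vale.Agent.P192.H567

/-- products of two free actions and `k` counters, uniform form -/
theorem ct_uniformQ (G : Type) [Group G] [Group.IsFinitelyPresented G] (hG : IsMulTorsion G)
    (S : Set G) (hS : Subgroup.closure S = ⊤) (L M : Type) [Group L] [Group M]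
    (δ : Set L → ℕ)
    (Γ : Subgroup M) [Γ.FiniteIndex] (k₀ : ℕ) (e : Γ ≃* FreeGroup (Fin k₀))
    (k m : ℕ) (K : Set (L × (Fin k → ℤ) × M)) (hK : K.Finite) :
    ∃ N : Subgroup G, N.Normal ∧ N.FiniteIndex ∧
      ∀ (U V : Type) [MulAction L U] [MulAction M V] (W : Fin k → Type)
        (T : ∀ i, Equiv.Perm (W i)),
      QC L U δ → (∀ (x : M) (v : V), x • v = v → x = 1) →
      ∀ ρ : G →* Equiv.Perm (U × (∀ i, W i) × V),
      (∀ s, (s ∈ S ∨ s⁻¹ ∈ S) → ∃ (a : ∀ i, W i → Fin m) (b : V → Fin m)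
        (f : U → (Fin k → Fin m) → Fin m → L × (Fin k → ℤ) × M), (∀ u α β, f u α β ∈ K) ∧
          ∀ u w v, ρ s (u, w, v) = ((f u (fun i => a i (w i)) (b v)).1 • u,
            (fun i => (T i ^ (f u (fun i => a i (w i)) (b v)).2.1 i) (w i)),
            (f u (fun i => a i (w i)) (b v)).2.2 • v)) →
      ∀ g ∈ N, ρ g = 1 := by
  classical
  obtain ⟨MM, σ, hσS, hσ, -⟩ := exists_tuple G S hS
  haveI : Finite K := hK
  let X₁ : Type := Fin MM × Bool → (Fin k → Fin m) → Fin m → K
  let X₂ : Type := Fin MM × Bool → Fin m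
  let m' : ℕ := Nat.card X₁ + Nat.card X₂
  let ε₁ : X₁ → Fin m' := fun x => Fin.castLE (Nat.le_add_right _ _) (Finite.equivFin X₁ x)
  let ε₂ : X₂ → Fin m' := fun x => Fin.castLE (Nat.le_add_left _ _) (Finite.equivFin X₂ x)
  have hε₁ : Function.Injective ε₁ := (Fin.castLE_injective _).comp (Finite.equivFin X₁).injective
  have hε₂ : Function.Injective ε₂ := (Fin.castLE_injective _).comp (Finite.equivFin X₂).injective
  let τ : L × (Fin k → ℤ) × M → L × (Fin k → Multiplicative ℤ) × M := fun x =>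
    (x.1, fun i => Multiplicative.ofAdd (x.2.1 i), x.2.2)
  obtain ⟨N, h1, h2, h3⟩ := uf_allQ L M δ Γ k₀ e k G hG MM σ hσ 1 m' (insert 1 (τ '' K))
    ((hK.image _).insert _)
  refine ⟨N, h1, h2, ?_⟩
  intro U V _ _ W T hU hV ρ hρ g hg
  have hgen : ∀ l : Fin MM × Bool, gen σ l ∈ S ∨ (gen σ l)⁻¹ ∈ S := by
    rintro ⟨i, ε⟩
    cases ε
    · right
      show ((σ i)⁻¹)⁻¹ ∈ S
      rw [inv_inv]; exact hσS ⟨i, rfl⟩
    · left; exact hσS ⟨i, rfl⟩
  choose a b f hf hact using fun l => hρ (gen σ l) (hgen l)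
  letI act : MulAction (L × (Fin k → Multiplicative ℤ) × M) (U × (∀ i, W i) × V) :=
    { smul := fun l y => (l.1 • y.1, fun i => (T i ^ (l.2.1 i).toAdd) (y.2.1 i), l.2.2 • y.2.2)
      one_smul := by
        rintro ⟨u, w, v⟩
        show ((1 : L) • u, fun i => (T i ^ (0 : ℤ)) (w i), (1 : M) • v) = _
        simp
      mul_smul := by
        rintro ⟨l, z, x⟩ ⟨l', z', x'⟩ ⟨u, w, v⟩
        show ((l * l') • u, fun i => (T i ^ (z i * z' i).toAdd) (w i), (x * x') • v) =
          (l • l' • u, fun i => (T i ^ (z i).toAdd) ((T i ^ (z' i).toAdd) (w i)), x • x' • v)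
        rw [mul_smul, mul_smul]
        refine Prod.ext rfl (Prod.ext (funext fun i => ?_) rfl)
        show (T i ^ (z i * z' i).toAdd) (w i) = _
        rw [toAdd_mul, zpow_add]; rfl }
  let Z : Type := U × (∀ i, W i) × V
  let α₁ : U → Fin m' := fun u => ε₁ (fun l α β => ⟨f l u α β, hf l u α β⟩)
  let α₂ : ∀ i, W i → Fin m' := fun i w => ε₂ (fun l => a l i w)
  let α₃ : V → Fin m' := fun v => ε₂ (fun l => b l v)
  let bb : Z → Fin m' × (Fin k → Fin m') × Fin m' := fun z =>
    (α₁ z.1, fun i => α₂ i (z.2.1 i), α₃ z.2.2)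
  let ff : Fin MM × Bool → Z → L × (Fin k → ℤ) × M := fun l z =>
    f l z.1 (fun i => a l i (z.2.1 i)) (b l z.2.2)
  have hff : ∀ l z z', bb z = bb z' → ff l z = ff l z' := by
    intro l z z' h
    have g1 : ∀ α β, f l z.1 α β = f l z'.1 α β := by
      intro α β
      have := hε₁ (congrArg Prod.fst h)
      exact congrArg Subtype.val (congrFun (congrFun (congrFun this l) α) β)
    have g2 : ∀ i, a l i (z.2.1 i) = a l i (z'.2.1 i) := by
      intro i
      have := hε₂ (congrFun (congrArg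
        (fun q : Fin m' × (Fin k → Fin m') × Fin m' => q.2.1) h) i)
      exact congrFun this l
    have g3 : b l z.2.2 = b l z'.2.2 := by
      have := hε₂ (congrArg (fun q : Fin m' × (Fin k → Fin m') × Fin m' => q.2.2) h)
      exact congrFun this l
    show f l z.1 (fun i => a l i (z.2.1 i)) (b l z.2.2) =
      f l z'.1 (fun i => a l i (z'.2.1 i)) (b l z'.2.2)
    rw [g1, g3]
    congr 1
    funext i
    exact g2 i
  let E : Z ≃ Unit × Z := (Equiv.punitProd Z).symm
  obtain ⟨ρ', h4, h5⟩ := exists_conj E ρ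
  apply h5
  refine h3 Unit (by simp) Z bb ?_ (fun l i γ => ((),
    if h : ∃ z, bb z = γ then τ (ff l h.choose) else 1)) ?_ ρ' ?_ g hg
  · exact ⟨U, V, _, _, W, T, Equiv.refl _, α₁, α₂, α₃, hU, hV, fun _ _ => rfl, fun _ => rfl⟩
  · intro l i γ
    by_cases h : ∃ z, bb z = γ
    · simp only [dif_pos h]
      exact Or.inr ⟨_, hf _ _ _ _, rfl⟩
    · simp only [dif_neg h]
      exact Or.inl rfl
  · intro l i z
    have h6 : ∃ z', bb z' = bb z := ⟨z, rfl⟩
    have h7 : ff l h6.choose = ff l z := hff l _ _ h6.choose_spec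
    simp only [dif_pos h6]
    rw [h7]
    show ρ' (gen σ l) (E z) = _
    rw [h4]
    obtain ⟨u, w, v⟩ := z
    rw [hact]
    rfl

end Vale.Agent.P192.H479.Q
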