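import Mathlib

/-!
# P192: rectangle exchanges with counters: definitions
-/

namespace Vale.Agent.P192.H479

/-- two factors and counters (`TreeProducts (1)`) -/
def Thr : Prop :=
  ∀ (G : Type) [Group G] [Group.IsFinitelyPresented G], (∀ x : G, IsOfFinOrder x) →
    ∀ M₀ : Set G, Subgroup.closure M₀ = ⊤ → (∀ a ∈ M₀, a⁻¹ ∈ M₀) →
    ∀ (L M : Type) [Group L] [Group M],
    (∀ E : Set L, E.Finite → ∃ m : ℕ, ∃ C : Set L, ∀ x : L,
      {y | Relation.ReflTransGen (fun a b => (a ∈ C ↔ b ∈ C) ∧ ∃ e ∈ E, b = e * a) x y}.encard ≤ m) →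
    (∃ (Γ : Subgroup M) (k : ℕ), Γ.FiniteIndex ∧ Nonempty (Γ ≃* FreeGroup (Fin k))) →
    ∀ (U V : Type) [MulAction L U] [MulAction M V],
    (∀ (l : L) (u : U), l • u = u → l = 1) → (∀ (x : M) (v : V), x • v = v → x = 1) →
    ∀ (k : ℕ) (W : Fin k → Type) (T : ∀ i, Equiv.Perm (W i))
    (ρ : G →* Equiv.Perm (U × (∀ i, W i) × V)) (KL : Set L) (KZ : Set (Fin k → ℤ)) (KM : Set M),
    KL.Finite → KZ.Finite → KM.Finite →
    ∀ (m : ℕ) (c : ∀ i, W i → Fin m) (β : Type) [Finite β] (b : V → β),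
    (∀ a ∈ M₀, ∀ u, ∀ α : Fin k → Fin m, ∀ j : β, ∃ l ∈ KL, ∃ z ∈ KZ, ∃ x ∈ KM, ∀ w v,
      (∀ i, c i (w i) = α i) → b v = j →
        ρ a (u, w, v) = (l • u, fun i => (T i ^ z i) (w i), x • v)) →
    Finite ρ.range

end Vale.Agent.P192.H479
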