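import Vale.Agent.P192.H479.RL6
import Vale.Agent.P192.H479.RL0b
import Vale.Agent.P192.H237.RegW

/-!
# P192: products of a free action, counters and an interval
-/

namespace Vale.Agent.P192.H479

open Vale.Agent.P192.RL5 Vale.Agent.P192.H237

/-- a common piece structure for finitely many elements -/
theorem Reg_inf_finite {H X : Type} [Group H] {act : H →* Equiv.Perm X} {D : Set X}
    (F : Reg act D) {ι : Type} {M : Set ι} (hM : M.Finite) (r : ι → X → X → Prop)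
    (hr : ∀ a ∈ M, r a ∈ F.R) :
    ∃ r₀ ∈ F.R, ∀ a ∈ M, ∀ x ∈ D, ∀ y ∈ D, r₀ x y → r a x y := by
  induction M, hM using Set.Finite.induction_on with
  | empty =>
    obtain ⟨r', hr'⟩ := F.ne
    exact ⟨r', hr', fun a ha => absurd ha (Set.notMem_empty a)⟩
  | @insert a s _ _ ih =>
    obtain ⟨r₁, h1, h2⟩ := ih (fun b hb => hr b (Set.mem_insert_of_mem _ hb))
    obtain ⟨r', h5, h6⟩ := F.inf r₁ h1 (r a) (hr a (Set.mem_insert _ _))
    refine ⟨r', h5, ?_⟩
    rintro b (rfl | hb) x hx y hy hxy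
    · exact (h6 x hx y hy hxy).2
    · exact h2 b hb x hx y hy (h6 x hx y hy hxy).1

variable {L U : Type} [Group L] [MulAction L U] {k : ℕ} {W : Fin k → Type}

/-- the pieces of `U × (W 0 × ... × W (k - 1))` -/
noncomputable abbrev FUW (L U : Type) [Group L] [MulAction L U] {k : ℕ} {W : Fin k → Type}
    (T : ∀ i, Equiv.Perm (W i)) :
    Reg (prodAct (MulAction.toPermHom L U) (actW T))
      {z : U × (∀ i, W i) | z.1 ∈ Set.univ ∧ z.2 ∈ Set.univ} :=
  (regPt (MulAction.toPermHom L U)).prod (regW T)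

/-- `Thr` in terms of pieces -/
theorem thr_reg (hThr : Thr) (G : Type) [Group G] [Group.IsFinitelyPresented G]
    (hG : ∀ x : G, IsOfFinOrder x) (M₀ : Set G) (hMf : M₀.Finite)
    (hgen : Subgroup.closure M₀ = ⊤) (hinv : ∀ a ∈ M₀, a⁻¹ ∈ M₀)
    (hL : ∀ E : Set L, E.Finite → ∃ m : ℕ, ∃ C : Set L, ∀ x : L,
      {y | Relation.ReflTransGen (fun a b => (a ∈ C ↔ b ∈ C) ∧ ∃ e ∈ E, b = e * a) x y}.encard ≤ m)
    (hU : ∀ (l : L) (u : U), l • u = u → l = 1) (T : ∀ i, Equiv.Perm (W i))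
    (M : Type) [Group M]
    (hM : ∃ (Γ : Subgroup M) (k : ℕ), Γ.FiniteIndex ∧ Nonempty (Γ ≃* FreeGroup (Fin k)))
    (V' : Type) [MulAction M V'] (hV : ∀ (x : M) (v : V'), x • v = v → x = 1)
    (Φ : G →* Equiv.Perm (V' × (U × (∀ i, W i)))) (β : Type) [Finite β] (b : V' → β)
    (KM : Set M) (hKM : KM.Finite)
    (h : ∀ a ∈ M₀, ∃ r ∈ (FUW L U T).R, ∃ Q : Set (L × (Fin k → Multiplicative ℤ)), Q.Finite ∧
      ∀ v, ∀ j : β, ∃ q ∈ Q, ∃ x ∈ KM, ∀ v', r v v' → ∀ z, b z = j →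
        Φ a (z, v') = (x • z, prodAct (MulAction.toPermHom L U) (actW T) q v')) :
    Finite Φ.range := by
  classical
  have h' : ∀ a, ∃ (r : (U × (∀ i, W i)) → (U × (∀ i, W i)) → Prop)
      (Q : Set (L × (Fin k → Multiplicative ℤ))), a ∈ M₀ → (r ∈ (FUW L U T).R ∧ Q.Finite ∧
      ∀ v, ∀ j : β, ∃ q ∈ Q, ∃ x ∈ KM, ∀ v', r v v' → ∀ z, b z = j →
        Φ a (z, v') = (x • z, prodAct (MulAction.toPermHom L U) (actW T) q v')) := by
    intro a
    by_cases ha : a ∈ M₀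
    · obtain ⟨r, hr, Q, hQ, h1⟩ := h a ha
      exact ⟨r, Q, fun _ => ⟨hr, hQ, h1⟩⟩
    · exact ⟨fun _ _ => True, ∅, fun h => absurd h ha⟩
  choose r Q hrQ using h'
  obtain ⟨r₀, hr₀, hr₀'⟩ := Reg_inf_finite (FUW L U T) hMf r (fun a ha => (hrQ a ha).1)
  obtain ⟨_, rfl, _, ⟨m, c, rfl⟩, rfl⟩ := hr₀
  let QQ : Set (L × (Fin k → Multiplicative ℤ)) := insert 1 (⋃ a ∈ M₀, Q a)
  have hQQ : QQ.Finite := (hMf.biUnion fun a ha => (hrQ a ha).2.1).insert 1
  let E : (V' × (U × (∀ i, W i))) ≃ (U × (∀ i, W i) × V') :=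
    { toFun := fun z => (z.2.1, z.2.2, z.1)
      invFun := fun z => (z.2.2, z.1, z.2.1)
      left_inv := fun z => rfl
      right_inv := fun z => rfl }
  refine finite_of_cj E Φ ?_
  refine hThr G hG M₀ hgen hinv L M hL hM U V' hU hV k W T _ (Prod.fst '' QQ)
    ((fun q : L × (Fin k → Multiplicative ℤ) => fun i => (q.2 i).toAdd) '' QQ) (insert 1 KM)
    (hQQ.image _) (hQQ.image _) (hKM.insert 1) m c β b ?_
  intro a ha u α j
  by_cases hw : ∃ w : ∀ i, W i, ∀ i, c i (w i) = α i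
  · obtain ⟨w₀, hw₀⟩ := hw
    obtain ⟨q, hq, x, hx, h2⟩ := (hrQ a ha).2.2 (u, w₀) j
    have hqQ : q ∈ QQ := Set.mem_insert_of_mem _ (Set.mem_biUnion ha hq)
    refine ⟨q.1, ⟨q, hqQ, rfl⟩, _, ⟨q, hqQ, rfl⟩, x, Set.mem_insert_of_mem _ hx,
      fun w v hwα hv => ?_⟩
    have h3 := h2 (u, w) (hr₀' a ha (u, w₀) ⟨trivial, trivial⟩ (u, w) ⟨trivial, trivial⟩
      ⟨rfl, fun i => by
        change c i (w₀ i) = c i (w i)
        rw [hw₀ i, hwα i]⟩) v hv
    change E (Φ a (v, (u, w))) = _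
    rw [h3]
    rfl
  · refine ⟨1, ⟨1, Set.mem_insert _ _, rfl⟩, _, ⟨1, Set.mem_insert _ _, rfl⟩, 1,
      Set.mem_insert _ _, fun w v hwα _ => absurd ⟨w, hwα⟩ hw⟩

/-- **Products of a free action of a group of asymptotic dimension at most one, counters and an
interval.** -/
theorem A2k (hPie : PieG) (hThr : Thr) (G : Type) [Group G] [Group.IsFinitelyPresented G]
    (hG : ∀ x : G, IsOfFinOrder x)
    (hL : ∀ E : Set L, E.Finite → ∃ m : ℕ, ∃ C : Set L, ∀ x : L,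
      {y | Relation.ReflTransGen (fun a b => (a ∈ C ↔ b ∈ C) ∧ ∃ e ∈ E, b = e * a) x y}.encard ≤ m)
    (hU : ∀ (l : L) (u : U), l • u = u → l = 1) (T : ∀ i, Equiv.Perm (W i)) (lam : ℝ)
    (ρ : G →* Equiv.Perm (ℝ × (U × (∀ i, W i))))
    (hout : ∀ g x v, x ∉ Set.Ico 0 lam → ρ g (x, v) = (x, v))
    (hPw : ∀ g, ((regReal lam).prod (FUW L U T)).Pw (ρ g)) : Finite ρ.range := by
  classical
  rcases le_or_gt lam 0 with hlam | hlam
  · have h1 : ∀ g, ρ g = 1 := by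
      intro g
      apply Equiv.ext
      rintro ⟨x, u⟩
      refine hout g x u ?_
      rintro ⟨h2, h3⟩
      linarith
    have : Subsingleton ρ.range := by
      refine ⟨?_⟩
      rintro ⟨_, g, rfl⟩ ⟨_, g', rfl⟩
      apply Subtype.ext
      change ρ g = ρ g'
      rw [h1, h1]
    infer_instance
  obtain ⟨M, hMf, hM1, hMinv, hgen, htab⟩ := H260.exists_table G
  obtain ⟨R, hRf, Φ, β, hβ, b, KM, hKM, hΦρ, hΦM, -⟩ := lift_gen hPie hG M hMf hM1 hgen htab lam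
    hlam (FUW L U T) ρ (fun g x v h => hout g x v (by
      rcases h with h | h
      · exact h
      · exact absurd ⟨trivial, trivial⟩ h)) (fun a _ => hPw a) (by
    intro P _ _ Ψ0 h1 _
    let _ : Fintype P := Fintype.ofFinite _
    have hn : NeZero (Fintype.card P) := ⟨Fintype.card_ne_zero⟩
    let QG : Type := Multiplicative (ZMod (Fintype.card P))
    have hQf : Finite QG := inferInstanceAs (Finite (ZMod (Fintype.card P)))
    let e : P ≃ QG := (Fintype.equivOfCardEq (by rw [ZMod.card])).trans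
      (Multiplicative.ofAdd (α := ZMod (Fintype.card P)))
    let E : (P × (U × (∀ i, W i))) ≃ (QG × (U × (∀ i, W i))) := e.prodCongr (Equiv.refl _)
    refine finite_of_cj E Ψ0 ?_
    refine thr_reg hThr G hG M hMf hgen hMinv hL hU T QG (vfree_fin QG) QG
      (fun x v h => mul_eq_right.1 h) _ QG id Set.univ Set.finite_univ ?_
    intro a ha
    obtain ⟨r, hr, Q, hQ, h2⟩ := h1 a ha
    refine ⟨r, hr, Q, hQ, fun v j => ?_⟩
    obtain ⟨q, hq, p', h3⟩ := h2 (e.symm j) v ⟨trivial, trivial⟩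
    refine ⟨q, hq, e p' * j⁻¹, Set.mem_univ _, fun v' hvv z hz => ?_⟩
    have hz : z = j := hz
    subst hz
    change E (Ψ0 a (e.symm z, v')) = _
    rw [(h3 v' ⟨trivial, trivial⟩ hvv).1]
    refine Prod.ext ?_ rfl
    change e p' = e p' * z⁻¹ * z
    rw [inv_mul_cancel_right])
  have hRfin : Finite R := hRf
  let _ := Iet.fact (RD.tau R)
  have hΦf : Finite Φ.range := by
    refine thr_reg hThr G hG M hMf hgen hMinv hL hU T (FreeGroup R) (vfree_free R)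
      (ℝ × FreeGroup R) ?_ Φ β b KM hKM ?_
    · intro f z hz
      have h1 : f * z.2 = z.2 := congrArg Prod.snd hz
      exact mul_eq_right.1 h1
    · intro a ha
      obtain ⟨r, hr, Q, hQ, h2⟩ := hΦM a ha
      refine ⟨r, hr, Q, hQ, fun v j => ?_⟩
      obtain ⟨q, hq, x, hx, h3⟩ := h2 v ⟨trivial, trivial⟩ j
      refine ⟨q, hq, x, hx, fun v' hvv z hz => ?_⟩
      exact (h3 v' ⟨trivial, trivial⟩ hvv z hz).1
  exact finite_range_of_ker Φ ρ hΦf hΦρ

end Vale.Agent.P192.H479
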