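import Vale.Agent.P192.H479.Q2
import Vale.Agent.P192.H479.StmtQ
import Vale.Agent.P192.H479.RL7

/-!
# P192: actions of asymptotic dimension at most one, free actions, counters
-/

namespace Vale.Agent.P192.H479.Q

open Vale.Agent.P192.H567 Vale.Agent.P192.RL5 Vale.Agent.P192.H237
open Vale.Agent.P192.H479

theorem exists_delta {L U : Type} [Group L] [MulAction L U] (h : QCe L U) :
    ∃ δ : Set L → ℕ, QC L U δ := by
  classical
  have h' : ∀ E : Set L, ∃ m : ℕ, E.Finite → ∃ C : Set U, ∀ x : U,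
      {y | Relation.ReflTransGen (fun a b => (a ∈ C ↔ b ∈ C) ∧ ∃ e ∈ E, b = e • a) x y}.encard
        ≤ m := by
    intro E
    by_cases hE : E.Finite
    · obtain ⟨m, C, hC⟩ := h E hE
      exact ⟨m, fun _ => ⟨C, hC⟩⟩
    · exact ⟨0, fun h => absurd h hE⟩
  choose δ hδ using h'
  exact ⟨δ, hδ⟩

/-- two factors and counters -/
theorem thrQ (G : Type) [Group G] [Group.IsFinitelyPresented G] (hG : ∀ x : G, IsOfFinOrder x)
    (M₀ : Set G) (hgen : Subgroup.closure M₀ = ⊤) (hinv : ∀ a ∈ M₀, a⁻¹ ∈ M₀)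
    (L M : Type) [Group L] [Group M]
    (hM : ∃ (Γ : Subgroup M) (k : ℕ), Γ.FiniteIndex ∧ Nonempty (Γ ≃* FreeGroup (Fin k)))
    (U V : Type) [MulAction L U] [MulAction M V]
    (hQ : QCe L U) (hV : ∀ (x : M) (v : V), x • v = v → x = 1)
    (k : ℕ) (W : Fin k → Type) (T : ∀ i, Equiv.Perm (W i))
    (ρ : G →* Equiv.Perm (U × (∀ i, W i) × V)) (KL : Set L) (KZ : Set (Fin k → ℤ)) (KM : Set M)
    (hKL : KL.Finite) (hKZ : KZ.Finite) (hKM : KM.Finite)
    (m : ℕ) (c : ∀ i, W i → Fin m) (β : Type) [Finite β] (b : V → β)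
    (h : ∀ a ∈ M₀, ∀ u, ∀ α : Fin k → Fin m, ∀ j : β, ∃ l ∈ KL, ∃ z ∈ KZ, ∃ x ∈ KM, ∀ w v,
      (∀ i, c i (w i) = α i) → b v = j →
        ρ a (u, w, v) = (l • u, fun i => (T i ^ z i) (w i), x • v)) :
    Finite ρ.range := by
  classical
  obtain ⟨Γ, k₀, hΓ, ⟨e⟩⟩ := hM
  obtain ⟨δ, hδ⟩ := exists_delta hQ
  let KK : Set (L × (Fin k → ℤ) × M) := insert (1, 0, 1) (KL ×ˢ (KZ ×ˢ KM))
  have hKK : KK.Finite := (hKL.prod (hKZ.prod hKM)).insert _
  have hΓ' : Γ.FiniteIndex := hΓ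
  let n : ℕ := m + Nat.card β
  let e₁ : Fin m → Fin n := Fin.castAdd (Nat.card β)
  let e₂ : β → Fin n := fun j => Fin.natAdd m (Finite.equivFin β j)
  have he₁ : Function.Injective e₁ := Fin.castAdd_injective _ _
  have he₂ : Function.Injective e₂ := (Fin.natAdd_injective _ _).comp (Finite.equivFin β).injective
  obtain ⟨N, -, hN2, hN3⟩ := ct_uniformQ G hG M₀ hgen L M δ Γ k₀ e k n KK hKK
  have key := hN3 U V W T hδ hV ρ (by
    intro s hs
    have hs' : s ∈ M₀ := by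
      rcases hs with hs | hs
      · exact hs
      · rw [← inv_inv s]
        exact hinv _ hs
    choose l hl z hz x hx hlx using h s hs'
    let f : U → (Fin k → Fin n) → Fin n → L × (Fin k → ℤ) × M := fun u α' j' =>
      if hd : ∃ p : (Fin k → Fin m) × β, (∀ i, e₁ (p.1 i) = α' i) ∧ e₂ p.2 = j' then
        (l u hd.choose.1 hd.choose.2, z u hd.choose.1 hd.choose.2, x u hd.choose.1 hd.choose.2)
      else (1, 0, 1)
    refine ⟨fun i v => e₁ (c i v), fun v => e₂ (b v), f, ?_, ?_⟩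
    · intro u α' j'
      by_cases hd : ∃ p : (Fin k → Fin m) × β, (∀ i, e₁ (p.1 i) = α' i) ∧ e₂ p.2 = j'
      · have h1 : f u α' j' = (l u hd.choose.1 hd.choose.2, z u hd.choose.1 hd.choose.2,
            x u hd.choose.1 hd.choose.2) := dif_pos hd
        rw [h1]
        exact Or.inr ⟨hl _ _ _, hz _ _ _, hx _ _ _⟩
      · have h1 : f u α' j' = (1, 0, 1) := dif_neg hd
        rw [h1]
        exact Or.inl rfl
    · intro u w v
      have hd : ∃ p : (Fin k → Fin m) × β,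
          (∀ i, e₁ (p.1 i) = (fun i => e₁ (c i (w i))) i) ∧ e₂ p.2 = e₂ (b v) :=
        ⟨(fun i => c i (w i), b v), fun i => rfl, rfl⟩
      have h1 : f u (fun i => e₁ (c i (w i))) (e₂ (b v)) =
          (l u hd.choose.1 hd.choose.2, z u hd.choose.1 hd.choose.2,
            x u hd.choose.1 hd.choose.2) := dif_pos hd
      rw [h1]
      have h2 : ∀ i, c i (w i) = hd.choose.1 i := fun i => (he₁ (hd.choose_spec.1 i)).symm
      have h3 : b v = hd.choose.2 := (he₂ hd.choose_spec.2).symm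
      exact hlx u hd.choose.1 hd.choose.2 w v h2 h3)
  have hle : N ≤ ρ.ker := fun g hg => key g hg
  have h1 : ρ.ker.FiniteIndex := Subgroup.finiteIndex_of_le hle
  have h2 : Finite (G ⧸ ρ.ker) := Subgroup.finite_quotient_of_finiteIndex
  exact Finite.of_equiv _ (QuotientGroup.quotientKerEquivRange ρ).toEquiv

variable {L U : Type} [Group L] [MulAction L U] {k : ℕ} {W : Fin k → Type}

/-- `Thr` in terms of pieces -/
theorem thr_regQ (G : Type) [Group G] [Group.IsFinitelyPresented G]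
    (hG : ∀ x : G, IsOfFinOrder x) (M₀ : Set G) (hMf : M₀.Finite)
    (hgen : Subgroup.closure M₀ = ⊤) (hinv : ∀ a ∈ M₀, a⁻¹ ∈ M₀)
    (hQ : QCe L U) (T : ∀ i, Equiv.Perm (W i))
    (M : Type) [Group M]
    (hM : ∃ (Γ : Subgroup M) (k : ℕ), Γ.FiniteIndex ∧ Nonempty (Γ ≃* FreeGroup (Fin k)))
    (V' : Type) [MulAction M V'] (hV : ∀ (x : M) (v : V'), x • v = v → x = 1)
    (Φ : G →* Equiv.Perm (V' × (U × (∀ i, W i)))) (β : Type) [Finite β] (b : V' → β)
    (KM : Set M) (hKM : KM.Finite)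
    (h : ∀ a ∈ M₀, ∃ r ∈ (FUW L U T).R, ∃ Q : Set (L × (Fin k → Multiplicative ℤ)), Q.Finite ∧
      ∀ v, ∀ j : β, ∃ q ∈ Q, ∃ x ∈ KM, ∀ v', r v v' → ∀ z, b z = j →
        Φ a (z, v') = (x • z, prodAct (MulAction.toPermHom L U) (actW T) q v')) :
    Finite Φ.range := by
  classical
  have h' : ∀ a, ∃ (r : (U × (∀ i, W i)) → (U × (∀ i, W i)) → Prop)
      (Q : Set (L × (Fin k → Multiplicative ℤ))), a ∈ M₀ → (r ∈ (FUW L U T).R ∧ Q.Finite ∧
      ∀ v, ∀ j : β, ∃ q ∈ Q, ∃ x ∈ KM, ∀ v', r v v' → ∀ z, b z = j →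
        Φ a (z, v') = (x • z, prodAct (MulAction.toPermHom L U) (actW T) q v')) := by
    intro a
    by_cases ha : a ∈ M₀
    · obtain ⟨r, hr, Q, hQ, h1⟩ := h a ha
      exact ⟨r, Q, fun _ => ⟨hr, hQ, h1⟩⟩
    · exact ⟨fun _ _ => True, ∅, fun h => absurd h ha⟩
  choose r Q hrQ using h'
  obtain ⟨r₀, hr₀, hr₀'⟩ := Reg_inf_finite (FUW L U T) hMf r (fun a ha => (hrQ a ha).1)
  obtain ⟨_, rfl, _, ⟨m, c, rfl⟩, rfl⟩ := hr₀
  let QQ : Set (L × (Fin k → Multiplicative ℤ)) := insert 1 (⋃ a ∈ M₀, Q a)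
  have hQQ : QQ.Finite := (hMf.biUnion fun a ha => (hrQ a ha).2.1).insert 1
  let E : (V' × (U × (∀ i, W i))) ≃ (U × (∀ i, W i) × V') :=
    { toFun := fun z => (z.2.1, z.2.2, z.1)
      invFun := fun z => (z.2.2, z.1, z.2.1)
      left_inv := fun z => rfl
      right_inv := fun z => rfl }
  refine finite_of_cj E Φ ?_
  refine thrQ G hG M₀ hgen hinv L M hM U V' hQ hV k W T _ (Prod.fst '' QQ)
    ((fun q : L × (Fin k → Multiplicative ℤ) => fun i => (q.2 i).toAdd) '' QQ) (insert 1 KM)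
    (hQQ.image _) (hQQ.image _) (hKM.insert 1) m c β b ?_
  intro a ha u α j
  by_cases hw : ∃ w : ∀ i, W i, ∀ i, c i (w i) = α i
  · obtain ⟨w₀, hw₀⟩ := hw
    obtain ⟨q, hq, x, hx, h2⟩ := (hrQ a ha).2.2 (u, w₀) j
    have hqQ : q ∈ QQ := Set.mem_insert_of_mem _ (Set.mem_biUnion ha hq)
    refine ⟨q.1, ⟨q, hqQ, rfl⟩, _, ⟨q, hqQ, rfl⟩, x, Set.mem_insert_of_mem _ hx,
      fun w v hwα hv => ?_⟩
    have h3 := h2 (u, w) (hr₀' a ha (u, w₀) ⟨trivial, trivial⟩ (u, w) ⟨trivial, trivial⟩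
      ⟨rfl, fun i => by
        change c i (w₀ i) = c i (w i)
        rw [hw₀ i, hwα i]⟩) v hv
    change E (Φ a (v, (u, w))) = _
    rw [h3]
    rfl
  · refine ⟨1, ⟨1, Set.mem_insert _ _, rfl⟩, _, ⟨1, Set.mem_insert _ _, rfl⟩, 1,
      Set.mem_insert _ _, fun w v hwα _ => absurd ⟨w, hwα⟩ hw⟩

/-- finitely many copies of `U × (W 0 × ... × W (k - 1))` -/
theorem thr_finQ (G : Type) [Group G] [Group.IsFinitelyPresented G]
    (hG : ∀ x : G, IsOfFinOrder x) (M : Set G) (hMf : M.Finite)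
    (hgen : Subgroup.closure M = ⊤) (hMinv : ∀ a ∈ M, a⁻¹ ∈ M)
    (hQ : QCe L U) (T : ∀ i, Equiv.Perm (W i))
    (P : Type) [Finite P] (Ψ0 : G →* Equiv.Perm (P × (U × (∀ i, W i))))
    (h1 : ∀ a ∈ M, ∃ r ∈ (FUW L U T).R, ∃ Q : Set (L × (Fin k → Multiplicative ℤ)), Q.Finite ∧
      ∀ p v, ∃ q ∈ Q, ∃ p', ∀ v', r v v' →
        Ψ0 a (p, v') = (p', prodAct (MulAction.toPermHom L U) (actW T) q v')) :
    Finite Ψ0.range := by
  classical
  rcases isEmpty_or_nonempty P with hP | hP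
  · have : Subsingleton (Equiv.Perm (P × (U × (∀ i, W i)))) := by
      refine ⟨fun a b => Equiv.ext fun z => ?_⟩
      exact (hP.false z.1).elim
    exact Finite.of_injective (fun x : Ψ0.range => (x : Equiv.Perm (P × (U × (∀ i, W i)))))
      Subtype.val_injective
  let _ : Fintype P := Fintype.ofFinite _
  have hn : NeZero (Fintype.card P) := ⟨Fintype.card_ne_zero⟩
  let QG : Type := Multiplicative (ZMod (Fintype.card P))
  have hQf : Finite QG := inferInstanceAs (Finite (ZMod (Fintype.card P)))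
  let e : P ≃ QG := (Fintype.equivOfCardEq (by rw [ZMod.card])).trans
    (Multiplicative.ofAdd (α := ZMod (Fintype.card P)))
  let E : (P × (U × (∀ i, W i))) ≃ (QG × (U × (∀ i, W i))) := e.prodCongr (Equiv.refl _)
  refine finite_of_cj E Ψ0 ?_
  refine thr_regQ G hG M hMf hgen hMinv hQ T QG (vfree_fin QG) QG
    (fun x v h => mul_eq_right.1 h) _ QG id Set.univ Set.finite_univ ?_
  intro a ha
  obtain ⟨r, hr, Q, hQ, h2⟩ := h1 a ha
  refine ⟨r, hr, Q, hQ, fun v j => ?_⟩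
  obtain ⟨q, hq, p', h3⟩ := h2 (e.symm j) v
  refine ⟨q, hq, e p' * j⁻¹, Set.mem_univ _, fun v' hvv z hz => ?_⟩
  have hz : z = j := hz
  subst hz
  change E (Ψ0 a (e.symm z, v')) = _
  rw [h3 v' hvv]
  refine Prod.ext ?_ rfl
  change e p' = e p' * z⁻¹ * z
  rw [inv_mul_cancel_right]

end Vale.Agent.P192.H479.Q
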