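import Vale.Agent.P192.H479.Q4
import Vale.Agent.P192.H794.F.G5
import Vale.Agent.P192.H479.StmtCell

/-!
# P192: ultraproducts of actions of asymptotic dimension at most one
-/

namespace Vale.Agent.P192.QF

open Filter Vale.Agent.P192.PMUnif Vale.Agent.P192.H794.F
open Vale.Agent.P192.H479.Q (QC)
open Vale.Agent.P192.H479 (finite_of_cj cj cj_apply QCe CellK)

/-- **The ultraproduct of actions of asymptotic dimension at most one.** -/
theorem qc_up {ι : Type} (U : Ultrafilter ι) {L : Type} [Group L] {V : ι → Type}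
    [∀ i, MulAction L (V i)] (δ : Set L → ℕ) (h : ∀ i, QC L (V i) δ) :
    @QC L (UP U V) _ (smulUP U L) δ := by
  classical
  letI aV : MulAction L (UP U V) := smulUP U L
  intro E hE
  choose C hC using fun i => h i E hE
  let C' : Set (UP U V) := {x | ∃ f : ∀ i, V i, mk U f = x ∧ ∀ᶠ i in (U : Filter ι), f i ∈ C i}
  have hC' : ∀ f : ∀ i, V i, mk U f ∈ C' ↔ ∀ᶠ i in (U : Filter ι), f i ∈ C i := by
    intro f
    constructor
    · rintro ⟨g, h1, h2⟩
      filter_upwards [(mk_eq U).1 h1, h2] with i e1 e2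
      rw [← e1]
      exact e2
    · exact fun h => ⟨f, rfl, h⟩
  refine ⟨C', fun x => ?_⟩
  obtain ⟨f, rfl⟩ := exists_mk U x
  have key : ∀ y, Relation.ReflTransGen (fun a b => (a ∈ C' ↔ b ∈ C') ∧ ∃ e ∈ E, b = e • a)
      (mk U f) y → ∀ g : ∀ i, V i, mk U g = y → ∀ᶠ i in (U : Filter ι),
        Relation.ReflTransGen (fun a b => (a ∈ C i ↔ b ∈ C i) ∧ ∃ e ∈ E, b = e • a)
          (f i) (g i) := by
    intro y hy
    induction hy with
    | refl =>
      intro g hg
      filter_upwards [(mk_eq U).1 hg] with i e1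
      rw [e1]
    | @tail y z _ hyz ih =>
      intro g hg
      obtain ⟨g', rfl⟩ := exists_mk U y
      obtain ⟨h1, e, he, h2⟩ := hyz
      rw [← hg] at h1 h2
      have h2' : mk U g = mk U fun i => e • g' i := h2
      have h3 := (mk_eq U).1 h2'
      rw [hC', hC'] at h1
      filter_upwards [ih g' rfl, h3, ev_iff U h1] with i e1 e2 e3
      exact e1.tail ⟨e3, e, he, e2⟩
  by_contra hcon
  push Not at hcon
  have h1 : ((δ E + 1 : ℕ) : ℕ∞) ≤ {y | Relation.ReflTransGen
      (fun a b => (a ∈ C' ↔ b ∈ C') ∧ ∃ e ∈ E, b = e • a) (mk U f) y}.encard := by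
    rw [Nat.cast_add, Nat.cast_one]
    exact Order.add_one_le_of_lt hcon
  obtain ⟨F, hF1, hF2⟩ := Set.exists_subset_encard_eq h1
  have hFf : F.Finite := by
    rw [← Set.encard_lt_top_iff, hF2]
    exact ENat.coe_lt_top _
  choose g hg using fun y : UP U V => exists_mk U y
  have hg' : ∀ y, mk U (g y) = y := hg
  have h2 : ∀ᶠ i in (U : Filter ι), ∀ y ∈ F, Relation.ReflTransGen
      (fun a b => (a ∈ C i ↔ b ∈ C i) ∧ ∃ e ∈ E, b = e • a) (f i) (g y i) := by
    rw [eventually_all_finite hFf]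
    intro y hy
    exact key y (hF1 hy) (g y) (hg' y)
  have h3 : ∀ᶠ i in (U : Filter ι), ∀ y ∈ F, ∀ y' ∈ F, g y i = g y' i → y = y' := by
    rw [eventually_all_finite hFf]
    intro y _
    rw [eventually_all_finite hFf]
    intro y' _
    by_cases hyy : y = y'
    · exact Eventually.of_forall fun _ _ => hyy
    · have h4 : ¬ ∀ᶠ i in (U : Filter ι), g y i = g y' i := by
        intro h5
        apply hyy
        rw [← hg' y, ← hg' y']
        exact (mk_eq U).2 h5
      rw [← Ultrafilter.eventually_not] at h4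
      filter_upwards [h4] with i e1 e2
      exact absurd e2 e1
  obtain ⟨i, h4, h5⟩ := (h2.and h3).exists
  have h6 : ((fun y => g y i) '' F).encard = F.encard :=
    Set.InjOn.encard_image fun y hy y' hy' hyy => h5 y hy y' hy' hyy
  have h7 : ((fun y => g y i) '' F).encard ≤ δ E := by
    refine le_trans (Set.encard_le_encard ?_) (hC i (f i))
    rintro _ ⟨y, hy, rfl⟩
    exact h4 y hy
  rw [h6, hF2] at h7
  exact absurd (Nat.cast_le.1 h7) (by omega)

/-- a system of generators acting on `V × W 0 × ... × W (k - 1) × 𝕜` by piecewise isometries -/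
structure SysQ (G L : Type) [Group G] [Group L] (S : Set G) (δ : Set L → ℕ) (k m : ℕ)
    (K₀ : Set (L × (Fin k → ℤ))) where
  𝕜 : Type
  [i1 : Field 𝕜]
  [i2 : LinearOrder 𝕜]
  [i3 : IsStrictOrderedRing 𝕜]
  V : Type
  [i4 : MulAction L V]
  qc : QC L V δ
  W : Fin k → Type
  T : ∀ i, Equiv.Perm (W i)
  ρ : G →* Equiv.Perm (V × (∀ i, W i) × 𝕜)
  pw : ∀ s ∈ S, ∃ (c : ∀ i, W i → Fin m) (B R : Finset 𝕜), B.card ≤ m ∧ R.card ≤ m ∧
    ∀ (u : V) (w : ∀ i, W i) (x : 𝕜), ∃ q ∈ K₀, ∃ e : 𝕜, |e| = 1 ∧ ∃ t ∈ R,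
      ∀ w' : ∀ i, W i, (∀ i, c i (w i) = c i (w' i)) → ∀ x' : 𝕜, Cell B x x' →
        ρ s (u, w', x') = (q.1 • u, fun i => (T i ^ q.2 i) (w' i), e * x' + t)

attribute [instance] SysQ.i1 SysQ.i2 SysQ.i3 SysQ.i4

/-- **The ultraproduct of systems has finite image.** -/
theorem ultra_isoQ (G : Type) [Group G] [Group.IsFinitelyPresented G]
    (hG : ∀ x : G, IsOfFinOrder x) (S : Set G) (hS : Subgroup.closure S = ⊤)
    (L : Type) [Group L]
    (δ : Set L → ℕ)
    (k m : ℕ) (K₀ : Set (L × (Fin k → ℤ))) (hK₀ : K₀.Finite)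
    {ι : Type} (D : ι → SysQ G L S δ k m K₀) (U : Ultrafilter ι) :
    Finite (act U (fun i => (D i).ρ)).range := by
  classical
  let K : ι → Type := fun i => (D i).𝕜
  let _ : ∀ i, Field (K i) := fun i => (D i).i1
  let _ : ∀ i, LinearOrder (K i) := fun i => (D i).i2
  have hso : ∀ i, IsStrictOrderedRing (K i) := fun i => (D i).i3
  let V : ι → Type := fun i => (D i).V
  let _ : ∀ i, MulAction L (V i) := fun i => (D i).i4
  let W : ι → Fin k → Type := fun i => (D i).W
  let aV : MulAction L (UP U V) := smulUP U L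
  let T' : ∀ j, Equiv.Perm (UP U (fun i => W i j)) := fun j => powUP U fun i => (D i).T j
  have haV : ∀ (l : L) (f : ∀ i, V i), l • mk U f = mk U fun i => l • f i := fun _ _ => rfl
  have hqc : QC L (UP U V) δ := qc_up U δ fun i => (D i).qc
  have hqe : QCe L (UP U V) := fun E hE => ⟨δ E, hqc E hE⟩
  refine finite_of_cj (splitE U (V := V) (W := W) (K := K)) _ ?_
  set ρ' := (cj (splitE U (V := V) (W := W) (K := K))).comp (act U fun i => (D i).ρ) with hρ'
  have hmk : ∀ (g : G) (a : ∀ i, V i) (b : ∀ j, ∀ i, W i j) (c : ∀ i, K i),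
      ρ' g (mk U a, fun j => mk U (b j), mk U c) =
        splitE U (mk U fun i => (D i).ρ g (a i, fun j => b j i, c i)) := by
    intro g a b c
    change splitE U (act U (fun i => (D i).ρ) g ((splitE U).symm _)) = _
    rw [splitE_symm, act_mk]
  refine iso_oneQ nu G hG S hS L (UP U V) hqe k (fun j => UP U fun i => W i j) T' ρ' ?_
  intro s hs
  choose c B R hB hR hpw using fun i => (D i).pw s hs
  choose β hβ using fun i => H794.F.exists_enum (0 : K i) (B i) (hB i)
  choose r hr using fun i => H794.F.exists_enum (0 : K i) (R i) (hR i)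
  refine ⟨m, fun j y => col U m (map1 U (fun i => c i j) y),
    Finset.univ.image fun t => mk U fun i => β i t,
    (fun p : (L × (Fin k → ℤ)) × Fin (m + 1) => (p.1.1, p.1.2, mk U fun i => r i p.2)) ''
      (K₀ ×ˢ Set.univ), (hK₀.prod Set.finite_univ).image _, ?_⟩
  intro u w x
  obtain ⟨a, rfl⟩ := exists_mk U u
  choose b hb using fun j => exists_mk U (w j)
  obtain rfl : (fun j => mk U (b j)) = w := funext hb
  obtain ⟨x, rfl⟩ := exists_mk U x
  have h1 : ∀ᶠ i in (U : Filter ι), ∃ q ∈ K₀, ∃ τ : Bool, ∃ t : Fin (m + 1),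
      ∀ w' : ∀ j, W i j, (∀ j, c i j (b j i) = c i j (w' j)) → ∀ x' : K i, Cell (B i) (x i) x' →
        (D i).ρ s (a i, w', x') =
          (q.1 • a i, fun j => ((D i).T j ^ q.2 j) (w' j), sg τ * x' + r i t) := by
    refine Eventually.of_forall fun i => ?_
    obtain ⟨q, hq, e, he, t, ht, h2⟩ := hpw i (a i) (fun j => b j i) (x i)
    obtain ⟨t', ht'⟩ := hr i t ht
    obtain ⟨τ, rfl⟩ : ∃ τ, e = sg τ := by
      rcases eq_or_eq_neg_of_abs_eq he with rfl | rfl
      · exact ⟨true, rfl⟩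
      · exact ⟨false, rfl⟩
    refine ⟨q, hq, τ, t', ?_⟩
    rw [ht']
    exact h2
  rw [Ultrafilter.eventually_exists_mem_iff hK₀] at h1
  obtain ⟨q, hq, h1⟩ := h1
  rw [Ultrafilter.eventually_exists_iff] at h1
  obtain ⟨τ, h1⟩ := h1
  rw [Ultrafilter.eventually_exists_iff] at h1
  obtain ⟨t, h1⟩ := h1
  refine ⟨_, ⟨(q, t), ⟨hq, trivial⟩, rfl⟩, sg τ, by cases τ <;> simp [sg], ?_⟩
  intro w' hw' x' hcell
  choose b' hb' using fun j => exists_mk U (w' j)
  obtain rfl : (fun j => mk U (b' j)) = w' := funext hb'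
  obtain ⟨x', rfl⟩ := exists_mk U x'
  have h3 : ∀ᶠ i in (U : Filter ι), ∀ j, c i j (b j i) = c i j (b' j i) := by
    rw [eventually_all]
    intro j
    exact (mk_eq U).1 (col_inj U (hw' j))
  have h5 : ∀ᶠ i in (U : Filter ι), ∀ t, (β i t < x i ↔ β i t < x' i) ∧
      (x i < β i t ↔ x' i < β i t) :=
    cell_ev U β x x' fun t => hcell _ (Finset.mem_image_of_mem _ (Finset.mem_univ t))
  rw [hmk]
  have h6 : (mk U fun i => (D i).ρ s (a i, fun j => b' j i, x' i)) =
      mk U fun i => (q.1 • a i, fun j => ((D i).T j ^ q.2 j) (b' j i), sg τ * x' i + r i t) := by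
    rw [mk_eq]
    filter_upwards [h1, h3, h5] with i e1 e3 e5
    refine e1 _ e3 _ ?_
    intro b hb
    obtain ⟨t, rfl⟩ := hβ i b hb
    exact e5 t
  rw [h6, splitE_mk]
  refine Prod.ext rfl (Prod.ext ?_ (iso_ev U τ x' fun i => r i t))
  funext j
  exact (powUP_zpow U (fun i => (D i).T j) (q.2 j) (b' j)).symm

/-- **Free action, counters, piecewise isometries of an ordered field: the uniform theorem.** -/
theorem unif_isoQ (G : Type) [Group G] [Group.IsFinitelyPresented G]
    (hG : ∀ x : G, IsOfFinOrder x) (S : Set G) (hS : Subgroup.closure S = ⊤)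
    (L : Type) [Group L]
    (δ : Set L → ℕ)
    (k m : ℕ) (K₀ : Set (L × (Fin k → ℤ))) (hK₀ : K₀.Finite) :
    ∃ N : Subgroup G, N.Normal ∧ N.FiniteIndex ∧ ∀ D : SysQ G L S δ k m K₀, ∀ g ∈ N, D.ρ g = 1 := by
  by_contra hcon
  push Not at hcon
  have h1 : ∀ N : Idx G, ∃ D : SysQ G L S δ k m K₀, ∃ g ∈ N.1, D.ρ g ≠ 1 :=
    fun N => hcon N.1 N.2.1 N.2.2
  choose D g hg hne using h1
  have hfg : Group.FG G := by
    obtain ⟨n, φ, hφ, -⟩ := (inferInstance : Group.IsFinitelyPresented G)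
    exact Group.fg_of_surjective hφ
  exact scheme hfg _ (fun i => (D i).ρ) g hg hne
    (fun U => ultra_isoQ G hG S hS L δ k m K₀ hK₀ D U)

end Vale.Agent.P192.QF
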