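import Mathlib

/-!
# P192: rectangle exchanges: definitions
-/

namespace Vale.Agent.P192.H479

/-- `g` is the identity outside of `[0, lam) × U`, and for finitely many breakpoints `B`, finitely
many group elements `K` and finitely many reals `T`, `g` is of the form `(y, u) ↦ (y + t, l • u)`,
`t ∈ T`, `l ∈ K`, for all `y` in one interval between breakpoints, `u` fixed. -/
def Gd (L : Type) [Group L] {U : Type} [MulAction L U] (lam : ℝ) (g : Equiv.Perm (ℝ × U)) : Prop :=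
  (∀ x u, x ∉ Set.Ico 0 lam → g (x, u) = (x, u)) ∧
  ∃ (B : Set ℝ) (K : Set L) (T : Set ℝ), B.Finite ∧ K.Finite ∧ T.Finite ∧
    ∀ u x, 0 ≤ x → x < lam → ∃ l ∈ K, ∃ t ∈ T, ∀ y, 0 ≤ y → y < lam →
      (∀ b ∈ B, b ≤ x ↔ b ≤ y) → g (y, u) = (y + t, l • u)

/-- the case of two factors, `k = 0` of `TreeProducts (1)` -/
def Two : Prop :=
  ∀ (G : Type) [Group G] [Group.IsFinitelyPresented G], (∀ x : G, IsOfFinOrder x) →
    ∀ M₀ : Set G, Subgroup.closure M₀ = ⊤ → (∀ a ∈ M₀, a⁻¹ ∈ M₀) →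
    ∀ (L M : Type) [Group L] [Group M],
    (∀ E : Set L, E.Finite → ∃ m : ℕ, ∃ C : Set L, ∀ x : L,
      {y | Relation.ReflTransGen (fun a b => (a ∈ C ↔ b ∈ C) ∧ ∃ e ∈ E, b = e * a) x y}.encard ≤ m) →
    (∃ (Γ : Subgroup M) (k : ℕ), Γ.FiniteIndex ∧ Nonempty (Γ ≃* FreeGroup (Fin k))) →
    ∀ (U V : Type) [MulAction L U] [MulAction M V],
    (∀ (l : L) (u : U), l • u = u → l = 1) → (∀ (x : M) (v : V), x • v = v → x = 1) →
    ∀ (ρ : G →* Equiv.Perm (U × V)) (KL : Set L) (KM : Set M), KL.Finite → KM.Finite →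
    ∀ (β : Type) [Finite β] (b : V → β),
    (∀ a ∈ M₀, ∀ u i, ∃ l ∈ KL, ∃ x ∈ KM, ∀ v, b v = i → ρ a (u, v) = (l • u, x • v)) →
    Finite ρ.range

end Vale.Agent.P192.H479
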