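import Mathlib

/-!
# P192: interval exchanges with a parameter: the integral model

`RD G V`: an action of `G` on `[0, L) × V` by exchanges of intervals in the first coordinate, with
the breakpoints of a finite set `M` of elements and an order preserving integral deformation `ν` of a
finite set of reals. Only the first coordinate is deformed.
-/

namespace Vale.Agent.P192.H479

/-- the data of the deformation -/
structure RD (G : Type) [Group G] (V : Type) where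
  M : Set G
  one : (1 : G) ∈ M
  L : ℝ
  hL : 0 < L
  ρ : G →* Equiv.Perm (ℝ × V)
  out : ∀ g x v, x ∉ Set.Ico 0 L → ρ g (x, v) = (x, v)
  B : Finset ℝ
  B0 : (0 : ℝ) ∈ B
  BL : L ∈ B
  Bge : ∀ b ∈ B, 0 ≤ b ∧ b ≤ L
  pt : ∀ a ∈ M, ∀ v x y, 0 ≤ x → x < y → y < L → (∀ b ∈ B, ¬ (x < b ∧ b ≤ y)) →
    (ρ a (y, v)).1 - (ρ a (x, v)).1 = y - x ∧ (ρ a (y, v)).2 = (ρ a (x, v)).2
  C : Finset ℝ
  Cge : ∀ c ∈ C, 0 ≤ c ∧ c < L
  BC : ∀ a ∈ M, ∀ v x, 0 ≤ x → x < L → (ρ a (x, v)).1 ∈ B → x ∈ C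
  BC1 : ∀ b ∈ B, b < L → b ∈ C
  Z : Set ℝ
  ZL : L ∈ Z
  ZC0 : ∀ c ∈ C, c ∈ Z
  ZC : ∀ c ∈ C, ∀ a ∈ M, ∀ b ∈ M, ∀ v, (ρ (a * b) (c, v)).1 ∈ Z
  ν : ℝ → ℤ
  ν0 : ν 0 = 0
  νpos : ∀ x ∈ Z, ∀ y ∈ Z, ∀ z ∈ Z, ∀ w ∈ Z, 0 < x - y + z - w → 0 < ν x - ν y + ν z - ν w
  νeq : ∀ x ∈ Z, ∀ y ∈ Z, ∀ z ∈ Z, ∀ w ∈ Z, x - y + z - w = 0 → ν x - ν y + ν z - ν w = 0
  p : ℤ → ℝ
  pC : ∀ k, 0 ≤ k → p k ∈ C
  pν : ∀ k, 0 ≤ k → ν (p k) ≤ k
  pmax : ∀ k, 0 ≤ k → ∀ c ∈ C, ν c ≤ k → c ≤ p k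

namespace RD

variable {G : Type} [Group G] {V : Type} (D : RD G V)

theorem ρ_one (z : ℝ × V) : D.ρ 1 z = z := by rw [map_one]; rfl

theorem ρ_mul (a b : G) (z : ℝ × V) : D.ρ (a * b) z = D.ρ a (D.ρ b z) := by rw [map_mul]; rfl

theorem mem_Ico (g : G) {x : ℝ} (v : V) (h : 0 ≤ x ∧ x < D.L) :
    0 ≤ (D.ρ g (x, v)).1 ∧ (D.ρ g (x, v)).1 < D.L := by
  by_contra hcon
  have h1 : (D.ρ g (x, v)).1 ∉ Set.Ico 0 D.L := hcon
  have h2 := D.out g⁻¹ _ (D.ρ g (x, v)).2 h1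
  rw [Prod.mk.eta, ← D.ρ_mul, inv_mul_cancel, D.ρ_one] at h2
  rw [← h2] at h1
  exact h1 h

theorem C0 : (0 : ℝ) ∈ D.C := D.BC1 0 D.B0 D.hL

theorem ZC1 {c : ℝ} (hc : c ∈ D.C) {a : G} (ha : a ∈ D.M) (v : V) : (D.ρ a (c, v)).1 ∈ D.Z := by
  have := D.ZC c hc a ha 1 D.one v
  rwa [mul_one] at this

theorem ZB {b : ℝ} (hb : b ∈ D.B) : b ∈ D.Z := by
  rcases (D.Bge b hb).2.lt_or_eq with h | h
  · exact D.ZC0 _ (D.BC1 _ hb h)
  · rw [h]; exact D.ZL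

theorem ν_lt {x y : ℝ} (hx : x ∈ D.Z) (hy : y ∈ D.Z) (h : x < y) : D.ν x < D.ν y := by
  have := D.νpos y hy x hx x hx x hx (by linarith)
  linarith

theorem ν_le {x y : ℝ} (hx : x ∈ D.Z) (hy : y ∈ D.Z) (h : x ≤ y) : D.ν x ≤ D.ν y := by
  rcases h.lt_or_eq with h | h
  · exact (D.ν_lt hx hy h).le
  · rw [h]

theorem ν_le_iff {x y : ℝ} (hx : x ∈ D.Z) (hy : y ∈ D.Z) : D.ν x ≤ D.ν y ↔ x ≤ y := by
  refine ⟨fun h => ?_, D.ν_le hx hy⟩
  by_contra hcon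
  exact absurd h (not_le.2 (D.ν_lt hy hx (not_le.1 hcon)))

/-- the next point -/
theorem exists_next {x : ℝ} (hx : x < D.L) : ∃ n : ℝ, n ∈ D.Z ∧ x < n ∧ n ≤ D.L ∧
    (∀ c ∈ D.C, x < c → n ≤ c) ∧ (n < D.L → n ∈ D.C) := by
  classical
  obtain ⟨n, hn, hmin⟩ := Finset.exists_min_image ((insert D.L D.C).filter fun c => x < c) id
    ⟨D.L, by simp [hx]⟩
  rw [Finset.mem_filter, Finset.mem_insert] at hn
  refine ⟨n, ?_, hn.2, ?_, ?_, ?_⟩
  · rcases hn.1 with h | h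
    · rw [h]; exact D.ZL
    · exact D.ZC0 _ h
  · exact hmin D.L (by simp [hx])
  · intro c hc hxc
    exact hmin c (by simp [hc, hxc])
  · intro hnL
    rcases hn.1 with h | h
    · exact absurd hnL (by rw [h]; exact lt_irrefl _)
    · exact h

/-- no breakpoint between `q` and the image of the interval up to the next point -/
theorem shift_le {p0 n : ℝ} (h0 : 0 ≤ p0) (hnL : n ≤ D.L)
    (hmin : ∀ c ∈ D.C, p0 < c → n ≤ c) {b : G} (hb : b ∈ D.M) (v : V) {c : ℝ} (hc : c ∈ D.B)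
    (hlt : (D.ρ b (p0, v)).1 < c) : (D.ρ b (p0, v)).1 + (n - p0) ≤ c := by
  by_contra hcon
  push Not at hcon
  set x := p0 + (c - (D.ρ b (p0, v)).1) with hx
  have h1 : p0 < x := by rw [hx]; linarith
  have h2 : x < n := by rw [hx]; linarith
  have h3 := (D.pt b hb v p0 x h0 h1 (lt_of_lt_of_le h2 hnL) (by
    rintro d hd ⟨hd1, hd2⟩
    have hdL : d < D.L := lt_of_le_of_lt hd2 (lt_of_lt_of_le h2 hnL)
    have := hmin d (D.BC1 _ hd hdL) hd1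
    linarith)).1
  have h4 : (D.ρ b (x, v)).1 = c := by rw [hx] at h3 ⊢; linarith
  have h5 := hmin x (D.BC b hb v x (by linarith) (lt_of_lt_of_le h2 hnL) (by rw [h4]; exact hc)) h1
  linarith

/-- the integral action: the first coordinate -/
def act (a : G) (k : ℤ) (v : V) : ℤ := k + (D.ν (D.ρ a (D.p k, v)).1 - D.ν (D.p k))

/-- the integral action: the second coordinate -/
def act2 (a : G) (k : ℤ) (v : V) : V := (D.ρ a (D.p k, v)).2

variable {k : ℤ}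

theorem p_ge (hk : 0 ≤ k) : 0 ≤ D.p k ∧ D.p k < D.L := D.Cge _ (D.pC k hk)

/-- breakpoints below a point of the integral model -/
theorem B_le_p (hk : 0 ≤ k) (hkL : k < D.ν D.L) {c : ℝ} (hc : c ∈ D.B) :
    c ≤ D.p k ↔ D.ν c ≤ k := by
  constructor
  · intro h
    exact (D.ν_le (D.ZB hc) (D.ZC0 _ (D.pC k hk)) h).trans (D.pν k hk)
  · intro h
    rcases (D.Bge c hc).2.lt_or_eq with h1 | h1
    · exact D.pmax k hk c (D.BC1 _ hc h1) h
    · rw [h1] at h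
      exact absurd hkL (not_lt.2 h)

/-- the fundamental comparison -/
theorem B_le_act (hk : 0 ≤ k) (hkL : k < D.ν D.L) {b : G} (hb : b ∈ D.M) (v : V) {c : ℝ}
    (hc : c ∈ D.B) :
    c ≤ (D.ρ b (D.p k, v)).1 ↔ D.ν c ≤ D.act b k v := by
  have hpC := D.pC k hk
  have hp := D.Cge _ hpC
  have hqZ := D.ZC1 hpC hb v
  constructor
  · intro h
    have h1 := D.ν_le (D.ZB hc) hqZ h
    have h2 := D.pν k hk
    unfold act
    linarith
  · intro h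
    by_contra hcon
    push Not at hcon
    obtain ⟨n, hnZ, hn, hnL, hmin, hnC⟩ := D.exists_next hp.2
    have h1 := D.shift_le hp.1 hnL hmin hb v hc hcon
    have hkn : k < D.ν n := by
      by_contra hkn
      push Not at hkn
      rcases hnL.lt_or_eq with h2 | h2
      · have := D.pmax k hk n (hnC h2) hkn
        linarith
      · rw [h2] at hkn
        linarith
    have h3 : 0 ≤ D.ν c - D.ν (D.ρ b (D.p k, v)).1 + D.ν (D.p k) - D.ν n := by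
      rcases (show 0 ≤ c - (D.ρ b (D.p k, v)).1 + D.p k - n by linarith).lt_or_eq with h4 | h4
      · exact (D.νpos _ (D.ZB hc) _ hqZ _ (D.ZC0 _ hpC) _ hnZ h4).le
      · exact (D.νeq _ (D.ZB hc) _ hqZ _ (D.ZC0 _ hpC) _ hnZ h4.symm).ge
    unfold act at h
    linarith

theorem act_ge (hk : 0 ≤ k) (hkL : k < D.ν D.L) {b : G} (hb : b ∈ D.M) (v : V) :
    0 ≤ D.act b k v ∧ D.act b k v < D.ν D.L := by
  have hp := D.p_ge hk
  have hq := D.mem_Ico b v hp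
  constructor
  · rw [← D.ν0]
    exact (D.B_le_act hk hkL hb v D.B0).1 hq.1
  · by_contra hcon
    push Not at hcon
    have := (D.B_le_act hk hkL hb v D.BL).2 hcon
    linarith

/-- two points without breakpoints in between -/
theorem pt' {a : G} (ha : a ∈ D.M) (v : V) {x y : ℝ} (hx : 0 ≤ x ∧ x < D.L) (hy : 0 ≤ y ∧ y < D.L)
    (h : ∀ c ∈ D.B, c ≤ x ↔ c ≤ y) :
    (D.ρ a (y, v)).1 - (D.ρ a (x, v)).1 = y - x ∧ (D.ρ a (y, v)).2 = (D.ρ a (x, v)).2 := by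
  rcases lt_trichotomy x y with h1 | h1 | h1
  · refine D.pt a ha v x y hx.1 h1 hy.2 ?_
    rintro b hb ⟨h2, h3⟩
    have := (h b hb).2 h3
    linarith
  · rw [h1]; exact ⟨by ring, rfl⟩
  · have := D.pt a ha v y x hy.1 h1 hx.2 (by
      rintro b hb ⟨h2, h3⟩
      have := (h b hb).1 h3
      linarith)
    exact ⟨by linarith [this.1], this.2.symm⟩

/-- the points `p (act b k)` and `ρ b (p k)` are in one band -/
theorem band (hk : 0 ≤ k) (hkL : k < D.ν D.L) {b : G} (hb : b ∈ D.M) (v : V) :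
    ∀ c ∈ D.B, c ≤ D.p (D.act b k v) ↔ c ≤ (D.ρ b (D.p k, v)).1 := by
  intro c hc
  have h := D.act_ge hk hkL hb v
  rw [D.B_le_p h.1 h.2 hc, D.B_le_act hk hkL hb v hc]

theorem trans_eq (hk : 0 ≤ k) (hkL : k < D.ν D.L) {a b : G} (ha : a ∈ D.M) (hb : b ∈ D.M) (v : V) :
    (D.ρ a (D.ρ b (D.p k, v))).1 - (D.ρ a (D.p (D.act b k v), D.act2 b k v)).1 =
      (D.ρ b (D.p k, v)).1 - D.p (D.act b k v) ∧
    (D.ρ a (D.ρ b (D.p k, v))).2 = (D.ρ a (D.p (D.act b k v), D.act2 b k v)).2 := by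
  have h := D.pt' ha (D.act2 b k v) (D.p_ge (D.act_ge hk hkL hb v).1)
    (D.mem_Ico b v (D.p_ge hk)) (D.band hk hkL hb v)
  have e : ((D.ρ b (D.p k, v)).1, D.act2 b k v) = D.ρ b (D.p k, v) := rfl
  rw [e] at h
  exact h

/-- **The integral action is multiplicative.** -/
theorem act_mul (hk : 0 ≤ k) (hkL : k < D.ν D.L) {a b : G} (ha : a ∈ D.M) (hb : b ∈ D.M) (v : V) :
    D.act (a * b) k v = D.act a (D.act b k v) (D.act2 b k v) := by
  have h := D.act_ge hk hkL hb v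
  have h1 := (D.trans_eq hk hkL ha hb v).1
  have h2 := D.νeq (D.ρ (a * b) (D.p k, v)).1 (D.ZC _ (D.pC k hk) a ha b hb v)
    (D.ρ b (D.p k, v)).1
    (D.ZC1 (D.pC k hk) hb v) (D.p (D.act b k v)) (D.ZC0 _ (D.pC _ h.1))
    (D.ρ a (D.p (D.act b k v), D.act2 b k v)).1
    (D.ZC1 (D.pC _ h.1) ha _) (by rw [D.ρ_mul]; linarith)
  have e1 : D.act (a * b) k v = k + (D.ν (D.ρ (a * b) (D.p k, v)).1 - D.ν (D.p k)) := rfl
  have e2 : D.act b k v = k + (D.ν (D.ρ b (D.p k, v)).1 - D.ν (D.p k)) := rfl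
  have e3 : D.act a (D.act b k v) (D.act2 b k v) = D.act b k v +
    (D.ν (D.ρ a (D.p (D.act b k v), D.act2 b k v)).1 - D.ν (D.p (D.act b k v))) := rfl
  rw [e3, e1]
  linarith

theorem act2_mul (hk : 0 ≤ k) (hkL : k < D.ν D.L) {a b : G} (ha : a ∈ D.M) (hb : b ∈ D.M) (v : V) :
    D.act2 (a * b) k v = D.act2 a (D.act b k v) (D.act2 b k v) := by
  have h1 := (D.trans_eq hk hkL ha hb v).2
  unfold act2 at h1 ⊢
  rw [D.ρ_mul]
  exact h1

theorem act_one (k : ℤ) (v : V) : D.act 1 k v = k := by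
  unfold act
  rw [D.ρ_one]
  ring

theorem act2_one (k : ℤ) (v : V) : D.act2 1 k v = v := by
  unfold act2
  rw [D.ρ_one]

/-- the translation -/
def tr (a : G) (k : ℤ) (v : V) : ℝ := (D.ρ a (D.p k, v)).1 - D.p k

theorem tr_one (k : ℤ) (v : V) : D.tr 1 k v = 0 := by
  unfold tr
  rw [D.ρ_one]
  ring

/-- **The translation is a cocycle on the integral model.** -/
theorem tr_mul (hk : 0 ≤ k) (hkL : k < D.ν D.L) {a b : G} (ha : a ∈ D.M) (hb : b ∈ D.M) (v : V) :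
    D.tr (a * b) k v = D.tr a (D.act b k v) (D.act2 b k v) + D.tr b k v := by
  have h1 := (D.trans_eq hk hkL ha hb v).1
  unfold tr
  rw [D.ρ_mul]
  linarith

end RD

end Vale.Agent.P192.H479
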