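import Vale.Agent.P192.H479.RL9

/-!
# P192: rectangle exchanges
-/

namespace Vale.Agent.P192.H479

/-- **Rectangle exchanges.** -/
theorem main_rec (G : Type) [Group G] [Group.IsFinitelyPresented G]
    (hG : ∀ x : G, IsOfFinOrder x) (S : Set G) (hS : Subgroup.closure S = ⊤) (lam mu : ℝ)
    (ρ : G →* Equiv.Perm (ℝ × ℝ))
    (hout : ∀ s ∈ S, ∀ z, z ∉ Set.Ico 0 lam ×ˢ Set.Ico 0 mu → ρ s z = z)
    (hρ : ∀ s ∈ S, ∃ B : Finset ℝ, ∀ z ∈ Set.Ico 0 lam ×ˢ Set.Ico 0 mu,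
      ∀ z' ∈ Set.Ico 0 lam ×ˢ Set.Ico 0 mu, Same B z.1 z'.1 → Same B z.2 z'.2 →
        ρ s z' - z' = ρ s z - z) :
    Finite ρ.range := by
  classical
  let W : Fin 0 → Type := fun _ => PUnit
  let T : ∀ i, Equiv.Perm (W i) := fun _ => 1
  let E : (ℝ × ℝ) ≃ (ℝ × (∀ i, W i) × ℝ) :=
    { toFun := fun z => (z.1, fun _ => PUnit.unit, z.2)
      invFun := fun z => (z.1, z.2.2)
      left_inv := fun z => rfl
      right_inv := fun z => rfl }
  refine finite_of_cj E ρ ?_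
  refine main_two G hG S hS 0 W T lam mu _ ?_ ?_
  · intro s hs x w y h
    change E (ρ s (x, y)) = _
    rw [hout s hs (x, y) (fun h2 => by
      rcases h with h | h
      · exact h h2.1
      · exact h h2.2)]
    rfl
  · intro s hs
    obtain ⟨B, hB⟩ := hρ s hs
    let D : Set (ℝ × ℝ) := Set.Ico 0 lam ×ˢ Set.Ico 0 mu
    let τ : ℝ × ℝ → (B → Prop) × (B → Prop) := fun z => (fun b => b.1 ≤ z.1, fun b => b.1 ≤ z.2)
    have hτ : ∀ z z', τ z = τ z' → Same B z.1 z'.1 ∧ Same B z.2 z'.2 := by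
      intro z z' h
      constructor
      · intro b hb
        have h1 := congrFun (congrArg Prod.fst h) ⟨b, hb⟩
        exact iff_of_eq h1
      · intro b hb
        have h1 := congrFun (congrArg Prod.snd h) ⟨b, hb⟩
        exact iff_of_eq h1
    let V : Set (ℝ × ℝ) := (fun z => ρ s z - z) '' D
    have hV : V.Finite := by
      have h1 : (Set.range (fun i : (B → Prop) × (B → Prop) =>
          if h : ∃ z ∈ D, τ z = i then ρ s h.choose - h.choose else 0)).Finite :=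
        Set.finite_range _
      refine h1.subset ?_
      rintro _ ⟨z, hz, rfl⟩
      have h2 : ∃ z' ∈ D, τ z' = τ z := ⟨z, hz, rfl⟩
      refine ⟨τ z, ?_⟩
      change dite _ _ _ = _
      rw [dif_pos h2]
      obtain ⟨h3, h4⟩ := h2.choose_spec
      obtain ⟨h5, h6⟩ := hτ _ _ h4.symm
      exact hB z hz _ h3 h5 h6
    refine ⟨1, fun _ _ => 0, B, (fun v : ℝ × ℝ => (v.1, (0 : Fin 0 → ℤ), v.2)) '' V,
      hV.image _, ?_⟩
    intro x hx w y hy
    refine ⟨_, ⟨ρ s (x, y) - (x, y), ⟨(x, y), ⟨hx, hy⟩, rfl⟩, rfl⟩, ?_⟩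
    intro x' hx' hxx w' _ y' hy' hyy
    have h1 := hB (x, y) ⟨hx, hy⟩ (x', y') ⟨hx', hy'⟩ hxx hyy
    change E (ρ s (x', y')) = _
    have h2 : ρ s (x', y') = (x', y') + (ρ s (x, y) - (x, y)) := by
      rw [← h1]
      abel
    rw [h2]
    refine Prod.ext rfl (Prod.ext ?_ rfl)
    funext i
    exact i.elim0

end Vale.Agent.P192.H479
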