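import Vale.Agent.P192.H479.RL8

/-!
# P192: piecewise actions on a line: reduction to intervals
-/

namespace Vale.Agent.P192.H479

open Vale.Agent.P192.RL5 Vale.Agent.P192.H237 Filter

/-- the intervals of the line -/
def regLine : Reg trans Set.univ where
  R := {r | ∃ B : Finset ℝ, r = Band B}
  ne := ⟨_, ∅, rfl⟩
  refl := by
    rintro _ ⟨B, rfl⟩ x _
    exact Band.refl B x
  inf := by
    classical
    rintro _ ⟨B, rfl⟩ _ ⟨B', rfl⟩
    refine ⟨_, ⟨B ∪ B', rfl⟩, fun x _ y _ h => ?_⟩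
    exact ⟨fun b hb => h b (Finset.mem_union_left _ hb),
      fun b hb => h b (Finset.mem_union_right _ hb)⟩
  pull := by
    classical
    rintro _ ⟨B, rfl⟩ t
    refine ⟨_, ⟨B.image fun b => b - t.toAdd, rfl⟩, fun x _ y _ h _ => ⟨trivial, fun b hb => ?_⟩⟩
    have h1 := h (b - t.toAdd) (Finset.mem_image_of_mem _ hb)
    rw [sub_le_iff_le_add, sub_le_iff_le_add] at h1
    exact h1

/-- the restriction of an action to an invariant subset, the identity elsewhere -/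
theorem exists_restr {G X : Type} [Group G] (ρ : G →* Equiv.Perm X) (A : Set X)
    (hA : ∀ g z, z ∈ A ↔ ρ g z ∈ A) :
    ∃ ρ' : G →* Equiv.Perm X, (∀ g, ∀ z ∈ A, ρ' g z = ρ g z) ∧ ∀ g, ∀ z, z ∉ A → ρ' g z = z := by
  classical
  let f : G →* Function.End X :=
    { toFun := fun g z => if z ∈ A then ρ g z else z
      map_one' := by
        funext z
        change (if z ∈ A then ρ 1 z else z) = z
        rw [map_one, Equiv.Perm.one_apply, ite_self]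
      map_mul' := by
        intro a b
        funext z
        change (if z ∈ A then ρ (a * b) z else z) =
          if (if z ∈ A then ρ b z else z) ∈ A then ρ a (if z ∈ A then ρ b z else z)
          else (if z ∈ A then ρ b z else z)
        by_cases h : z ∈ A
        · rw [if_pos h, if_pos h, if_pos ((hA b z).1 h), map_mul, Equiv.Perm.mul_apply]
        · rw [if_neg h, if_neg h, if_neg h] }
  refine ⟨f.toHomPerm, fun g z hz => ?_, fun g z hz => ?_⟩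
  · change (if z ∈ A then ρ g z else z) = _
    rw [if_pos hz]
  · change (if z ∈ A then ρ g z else z) = _
    rw [if_neg hz]

section line

variable {G : Type} [Group G] {H V : Type} [Group H] {act : H →* Equiv.Perm V}
  {DV : Set V} (F : Reg act DV)

/-- the average potential is constant on pieces -/
theorem avg_const (hDV : ∀ v, v ∈ DV) (Ψ : G →* Equiv.Perm (V × ℝ)) [Fintype Ψ.range]
    (h : ∀ g, (F.prod (regPt trans)).Pw (Ψ g)) :
    (Set.range (avg Ψ)).Finite ∧ ∃ r ∈ F.R, ∀ v v', r v v' → avg Ψ v = avg Ψ v' := by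
  classical
  have h1 : ∀ g, ∃ r ∈ F.R, (∀ v v', r v v' → (Ψ g (v, 0)).2 = (Ψ g (v', 0)).2) ∧
      {r : ℝ | ∃ x, r = (Ψ g (x, 0)).2}.Finite := by
    intro g
    obtain ⟨_, ⟨r, hr, _, rfl, rfl⟩, Q, hQ, h2⟩ := h g
    refine ⟨r, hr, fun v v' hv => ?_, ?_⟩
    · obtain ⟨q, hq, h3⟩ := h2 (v, 0) ⟨hDV v, trivial⟩
      rw [(h3 (v, 0) ⟨hDV v, trivial⟩ ⟨F.refl r hr v (hDV v), rfl⟩).1,
        (h3 (v', 0) ⟨hDV v', trivial⟩ ⟨hv, rfl⟩).1]
      rfl
    · refine (hQ.image (fun q => (0 : ℝ) + q.2.toAdd)).subset ?_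
      rintro s ⟨x, rfl⟩
      obtain ⟨q, hq, h3⟩ := h2 (x, 0) ⟨hDV x, trivial⟩
      refine ⟨q, hq, ?_⟩
      rw [(h3 (x, 0) ⟨hDV x, trivial⟩ ⟨F.refl r hr x (hDV x), rfl⟩).1]
      rfl
  constructor
  · refine (RD.finite_avg Ψ (fun g => (h1 g).choose_spec.2.2)).subset ?_
    rintro _ ⟨v, rfl⟩
    exact ⟨v, rfl⟩
  · have h2 : ∀ q : Ψ.range, ∃ r ∈ F.R, ∀ v v', r v v' →
        ((q : Equiv.Perm (V × ℝ)) (v, 0)).2 = ((q : Equiv.Perm (V × ℝ)) (v', 0)).2 := by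
      rintro ⟨_, g, rfl⟩
      obtain ⟨r, hr, h3, -⟩ := h1 g
      exact ⟨r, hr, h3⟩
    choose r hr h3 using h2
    obtain ⟨r₀, hr₀, h4⟩ := Reg_inf_finite F (ι := Ψ.range) (M := Set.univ) Set.finite_univ r
      (fun a _ => hr a)
    refine ⟨r₀, hr₀, fun v v' hv => ?_⟩
    unfold avg
    rw [Finset.sum_congr rfl (fun q _ => h3 q v v' (h4 q trivial v (hDV v) v' (hDV v') hv))]

/-- **One end of the line.** -/
theorem line_end (hG : ∀ x : G, IsOfFinOrder x) (M : Set G) (hMf : M.Finite)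
    (hgen : Subgroup.closure M = ⊤) (htab : RD.Tab M) (hDV : ∀ v, v ∈ DV)
    (ρ : G →* Equiv.Perm (ℝ × V)) (hPw : ∀ g, (regLine.prod F).Pw (ρ g))
    (H1 : ∀ σ : G →* Equiv.Perm V, (∀ g, F.Pw (σ g)) → Finite σ.range)
    (l : Filter ℝ) [l.NeBot] (e1 : ∀ b : ℝ, (∀ᶠ x in l, b ≤ x) ∨ (∀ᶠ x in l, ¬ b ≤ x))
    (e2 : ∀ t : ℝ, Tendsto (fun x => x + t) l l)
    (e3 : ∀ C ∈ l, ∃ J ∈ l, J ⊆ C ∧ ∃ b : ℝ, ∀ x y, (b ≤ x ↔ b ≤ y) → (x ∈ J ↔ y ∈ J)) :
    ∃ (A : Set (ℝ × V)) (N : Subgroup G), N.FiniteIndex ∧ (∀ g ∈ N, ∀ z ∈ A, ρ g z = z) ∧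
      (∀ g z, z ∈ A ↔ ρ g z ∈ A) ∧
      (∃ r ∈ (regLine.prod F).R, ∀ z z', r z z' → (z ∈ A ↔ z' ∈ A)) ∧
      ∀ᶠ x in l, ∀ v, (x, v) ∈ A := by
  classical
  -- two points near the end are in one band
  have hband : ∀ B : Finset ℝ, ∃ C ∈ l, ∀ x ∈ C, ∀ y ∈ C, Band B x y := by
    intro B
    have h1 : ∀ b : ℝ, ∃ C ∈ l, ∀ x ∈ C, ∀ y ∈ C, b ≤ x ↔ b ≤ y := by
      intro b
      rcases e1 b with h | h
      · exact ⟨_, h, fun x hx y hy => ⟨fun _ => hy, fun _ => hx⟩⟩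
      · exact ⟨_, h, fun x hx y hy => ⟨fun h' => absurd h' hx, fun h' => absurd h' hy⟩⟩
    choose C hC hCb using h1
    refine ⟨⋂ b ∈ B, C b, (biInter_finset_mem B).2 fun b _ => hC b, fun x hx y hy b hb => ?_⟩
    exact hCb b x (Set.mem_iInter₂.1 hx b hb) y (Set.mem_iInter₂.1 hy b hb)
  -- the data of the generators
  have hdat : ∀ a : G, ∃ r ∈ F.R, ∃ Q : Set (Multiplicative ℝ × H), Q.Finite ∧ ∃ C ∈ l,
      ∀ v, ∃ q ∈ Q, ∀ x ∈ C, ∀ v', r v v' → ρ a (x, v') = (x + q.1.toAdd, act q.2 v') := by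
    intro a
    obtain ⟨_, ⟨_, ⟨B, rfl⟩, r, hr, rfl⟩, Q, hQ, h2⟩ := hPw a
    obtain ⟨C, hC, hCb⟩ := hband B
    obtain ⟨x₀, hx₀⟩ := nonempty_of_mem hC
    refine ⟨r, hr, Q, hQ, C, hC, fun v => ?_⟩
    obtain ⟨q, hq, h3⟩ := h2 (x₀, v) ⟨trivial, hDV v⟩
    exact ⟨q, hq, fun x hx v' hv => (h3 (x, v') ⟨trivial, hDV v'⟩ ⟨hCb x₀ hx₀ x hx, hv⟩).1⟩
  choose r hr Q hQ C hC hρ using hdat
  let C₀ : Set ℝ := ⋂ a ∈ M, C a
  have hC₀ : C₀ ∈ l := (biInter_mem hMf).2 fun a _ => hC a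
  let P : Set ℝ := insert 0 (⋃ a ∈ M, (fun q : Multiplicative ℝ × H => q.1.toAdd) '' Q a)
  have hP : P.Finite := (hMf.biUnion fun a _ => (hQ a).image _).insert 0
  have hshift : ∀ (P : Set ℝ), P.Finite → ∀ C ∈ l, ∀ᶠ x in l, ∀ p ∈ P, x + p ∈ C := by
    intro P hP C hC
    exact (eventually_all_finite hP).2 fun p _ => e2 p hC
  obtain ⟨x₀, hx₀⟩ := (hshift P hP C₀ hC₀).exists
  have hx₀C : ∀ a ∈ M, x₀ ∈ C a := by
    intro a ha
    have := hx₀ 0 (Set.mem_insert _ _)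
    rw [add_zero] at this
    exact Set.mem_iInter₂.1 this a ha
  have hgerm : ∀ a ∈ M, ∀ v, ∃ q ∈ Q a, ∀ x ∈ C a, ∀ v', r a v v' →
      ρ a (x, v') = (x + q.1.toAdd, act q.2 v') ∧
      ρ a (x, v') = (x + ((ρ a (x₀, v')).1 - x₀), (ρ a (x₀, v')).2) := by
    intro a ha v
    obtain ⟨q, hq, h1⟩ := hρ a v
    refine ⟨q, hq, fun x hx v' hv => ⟨h1 x hx v' hv, ?_⟩⟩
    rw [h1 x hx v' hv, h1 x₀ (hx₀C a ha) v' hv]
    refine Prod.ext ?_ rfl
    change x + q.1.toAdd = x + (x₀ + q.1.toAdd - x₀)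
    ring
  have hg1 : ∀ a ∈ M, ∀ x ∈ C a, ∀ v,
      ρ a (x, v) = (x + ((ρ a (x₀, v)).1 - x₀), (ρ a (x₀, v)).2) := by
    intro a ha x hx v
    obtain ⟨q, hq, h1⟩ := hgerm a ha v
    exact (h1 x hx v (F.refl _ (hr a) v (hDV v))).2
  have hg2 : ∀ a ∈ M, ∀ b ∈ M, ∀ v, (ρ b (x₀, v)).1 ∈ C a := by
    intro a ha b hb v
    obtain ⟨q, hq, h1⟩ := hgerm b hb v
    rw [(h1 x₀ (hx₀C b hb) v (F.refl _ (hr b) v (hDV v))).1]
    exact Set.mem_iInter₂.1 (hx₀ q.1.toAdd (Set.mem_insert_of_mem _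
      (Set.mem_biUnion hb ⟨q, hq, rfl⟩))) a ha
  -- the action at the end
  obtain ⟨σ, hσ⟩ := htab V (fun g v => (ρ g (x₀, v)).2) (by
    funext v
    change (ρ 1 (x₀, v)).2 = v
    rw [map_one]
    rfl) (by
    intro a ha b hb
    funext v
    change (ρ (a * b) (x₀, v)).2 = (ρ a (x₀, (ρ b (x₀, v)).2)).2
    rw [map_mul, Equiv.Perm.mul_apply]
    conv_lhs => rw [← Prod.mk.eta (p := ρ b (x₀, v))]
    rw [hg1 a ha _ (hg2 a ha b hb v)])
  obtain ⟨Ψ, hΨ1⟩ := htab (V × ℝ) (fun g z => ((ρ g (x₀, z.1)).2, (ρ g (x₀, z.1)).1 - x₀ + z.2)) (by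
    funext z
    change ((ρ 1 (x₀, z.1)).2, (ρ 1 (x₀, z.1)).1 - x₀ + z.2) = z
    rw [map_one]
    refine Prod.ext rfl ?_
    change x₀ - x₀ + z.2 = z.2
    ring) (by
    intro a ha b hb
    funext z
    change ((ρ (a * b) (x₀, z.1)).2, (ρ (a * b) (x₀, z.1)).1 - x₀ + z.2) =
      ((ρ a (x₀, (ρ b (x₀, z.1)).2)).2,
        (ρ a (x₀, (ρ b (x₀, z.1)).2)).1 - x₀ + ((ρ b (x₀, z.1)).1 - x₀ + z.2))
    have h1 : ρ (a * b) (x₀, z.1) = ρ a ((ρ b (x₀, z.1)).1, (ρ b (x₀, z.1)).2) := by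
      rw [map_mul, Equiv.Perm.mul_apply]
    rw [h1, hg1 a ha _ (hg2 a ha b hb z.1)]
    refine Prod.ext rfl ?_
    change (ρ b (x₀, z.1)).1 + ((ρ a (x₀, (ρ b (x₀, z.1)).2)).1 - x₀) - x₀ + z.2 = _
    ring)
  have hΨσ : ∀ g x s, (Ψ g (x, s)).1 = σ g x := by
    refine gen_induct hgen ?_ ?_ ?_ ?_
    · intro a ha x s
      rw [hΨ1 a ha, hσ a ha]
    · intro x s
      rw [map_one, map_one]
      rfl
    · intro a b ha hb x s
      rw [map_mul, map_mul, Equiv.Perm.mul_apply, Equiv.Perm.mul_apply,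
        ← Prod.mk.eta (p := Ψ b (x, s)), ha, hb]
    · intro a ha x s
      have h2 := ha (Ψ a⁻¹ (x, s)).1 (Ψ a⁻¹ (x, s)).2
      rw [Prod.mk.eta, ← Equiv.Perm.mul_apply, ← map_mul, mul_inv_cancel, map_one] at h2
      change x = _ at h2
      conv_rhs => rw [h2]
      rw [← Equiv.Perm.mul_apply, ← map_mul, inv_mul_cancel, map_one]
      rfl
  have hΨ : ∀ g x s, Ψ g (x, s) = ((Ψ g (x, 0)).1, (Ψ g (x, 0)).2 + s) := by
    refine gen_induct hgen ?_ ?_ ?_ ?_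
    · intro a ha x s
      rw [hΨ1 a ha, hΨ1 a ha]
      refine Prod.ext rfl ?_
      change (ρ a (x₀, x)).1 - x₀ + s = (ρ a (x₀, x)).1 - x₀ + 0 + s
      ring
    · intro x s
      rw [map_one, Equiv.Perm.one_apply, Equiv.Perm.one_apply, zero_add]
    · intro a b ha hb x s
      rw [map_mul, Equiv.Perm.mul_apply, Equiv.Perm.mul_apply, hb x s, ha, hb x 0]
      conv_rhs => rw [ha]
      refine Prod.ext rfl ?_
      change _ + (_ + _) = _ + (_ + 0) + s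
      ring
    · intro a ha x s
      obtain ⟨⟨y, t⟩, hy⟩ : ∃ z, Ψ a z = (x, 0) := (Ψ a).surjective _
      have e1 : Ψ a (y, t + s) = (x, s) := by
        have h1 := ha y t
        have h2 := ha y (t + s)
        rw [hy] at h1
        rw [h2]
        have h3 := congrArg Prod.fst h1
        have h4 := congrArg Prod.snd h1
        refine Prod.ext h3.symm ?_
        change (0 : ℝ) = _ + t at h4
        change _ + (t + s) = s
        linarith
      have i1 : Ψ a⁻¹ (x, 0) = (y, t) := by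
        rw [← hy, ← Equiv.Perm.mul_apply, ← map_mul, inv_mul_cancel, map_one]; rfl
      have i2 : Ψ a⁻¹ (x, s) = (y, t + s) := by
        rw [← e1, ← Equiv.Perm.mul_apply, ← map_mul, inv_mul_cancel, map_one]; rfl
      rw [i1, i2]
  have hσPw := Reg.Pw.all (F := F) hgen σ (fun a _ v => ⟨fun _ => hDV _, fun _ => hDV _⟩) (by
    intro a ha
    refine ⟨r a, hr a, Prod.snd '' Q a, (hQ a).image _, fun v _ => ?_⟩
    obtain ⟨q, hq, h1⟩ := hgerm a ha v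
    refine ⟨q.2, ⟨q, hq, rfl⟩, fun v' _ hv => ⟨?_, hDV _⟩⟩
    rw [hσ a ha]
    rw [(h1 x₀ (hx₀C a ha) v' hv).1])
  have hσf : Finite σ.range := H1 σ hσPw.2
  have hΨPw := Reg.Pw.all (F := F.prod (regPt trans)) hgen Ψ
    (fun a _ v => ⟨fun _ => ⟨hDV _, trivial⟩, fun _ => ⟨hDV _, trivial⟩⟩) (by
    intro a ha
    refine ⟨_, ⟨r a, hr a, _, rfl, rfl⟩, Prod.swap '' Q a, (hQ a).image _, ?_⟩
    rintro ⟨v, s⟩ -
    obtain ⟨q, hq, h1⟩ := hgerm a ha v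
    refine ⟨_, ⟨q, hq, rfl⟩, ?_⟩
    rintro ⟨v', s'⟩ - ⟨hv, -⟩
    refine ⟨?_, hDV _, trivial⟩
    rw [hΨ1 a ha]
    change ((ρ a (x₀, v')).2, (ρ a (x₀, v')).1 - x₀ + s') = (act q.2 v', s' + q.1.toAdd)
    rw [(h1 x₀ (hx₀C a ha) v' hv).1]
    refine Prod.ext rfl ?_
    change x₀ + q.1.toAdd - x₀ + s' = _
    ring)
  have hΨf : Finite Ψ.range := finite_of_base Ψ hΨ hG σ (fun g x => hΨσ g x 0) hσf
  let _ : Fintype Ψ.range := Fintype.ofFinite _
  obtain ⟨hpos, rp, hrp, hrpos⟩ := avg_const F hDV Ψ hΨPw.2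
  have hspec : ∀ a ∈ M, ∀ v, (ρ a (x₀, v)).1 - x₀ = avg Ψ (σ a v) - avg Ψ v := by
    intro a ha v
    have h1 := avg_spec Ψ hΨ a v
    rw [hΨσ a v 0, hΨ1 a ha] at h1
    change _ = (ρ a (x₀, v)).1 - x₀ + 0 + avg Ψ v at h1
    linarith
  -- the region
  obtain ⟨J, hJ, hJC, b, hb⟩ := e3 _ (hshift _ hpos C₀ hC₀)
  let A : Set (ℝ × V) := {z | z.1 - avg Ψ z.2 ∈ J}
  have hAC : ∀ z ∈ A, ∀ a ∈ M, z.1 ∈ C a := by
    intro z hz a ha
    have h1 := hJC hz (avg Ψ z.2) ⟨z.2, rfl⟩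
    change z.1 - avg Ψ z.2 + avg Ψ z.2 ∈ C₀ at h1
    rw [sub_add_cancel] at h1
    exact Set.mem_iInter₂.1 h1 a ha
  have hall : ∀ g, ∀ z ∈ A, ρ g z = (z.1 - avg Ψ z.2 + avg Ψ (σ g z.2), σ g z.2) := by
    refine gen_induct hgen ?_ ?_ ?_ ?_
    · intro a ha z hz
      have h1 := hg1 a ha z.1 (hAC z hz a ha) z.2
      rw [Prod.mk.eta] at h1
      rw [h1, hspec a ha, hσ a ha]
      refine Prod.ext ?_ rfl
      ring
    · intro z _
      rw [map_one, map_one]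
      refine Prod.ext ?_ rfl
      change z.1 = z.1 - avg Ψ z.2 + avg Ψ z.2
      ring
    · intro a b ha hb z hz
      have hz' : ρ b z ∈ A := by
        rw [hb z hz]
        change z.1 - avg Ψ z.2 + avg Ψ (σ b z.2) - avg Ψ (σ b z.2) ∈ J
        rwa [add_sub_cancel_right]
      rw [map_mul, Equiv.Perm.mul_apply, ha _ hz', hb z hz, map_mul, Equiv.Perm.mul_apply]
      refine Prod.ext ?_ rfl
      change z.1 - avg Ψ z.2 + avg Ψ (σ b z.2) - avg Ψ (σ b z.2) + _ = _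
      ring
    · intro a ha z hz
      let z' : ℝ × V := (z.1 - avg Ψ z.2 + avg Ψ (σ a⁻¹ z.2), σ a⁻¹ z.2)
      have hz' : z' ∈ A := by
        change z.1 - avg Ψ z.2 + avg Ψ (σ a⁻¹ z.2) - avg Ψ (σ a⁻¹ z.2) ∈ J
        rwa [add_sub_cancel_right]
      have h1 : σ a (σ a⁻¹ z.2) = z.2 := by
        rw [← Equiv.Perm.mul_apply, ← map_mul, mul_inv_cancel, map_one]
        rfl
      have h2 : ρ a z' = z := by
        rw [ha z' hz']
        refine Prod.ext ?_ h1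
        change z.1 - avg Ψ z.2 + avg Ψ (σ a⁻¹ z.2) - avg Ψ (σ a⁻¹ z.2) +
          avg Ψ (σ a (σ a⁻¹ z.2)) = z.1
        rw [h1]
        ring
      calc ρ a⁻¹ z = ρ a⁻¹ (ρ a z') := by rw [h2]
        _ = z' := by
          rw [← Equiv.Perm.mul_apply, ← map_mul, inv_mul_cancel, map_one]
          rfl
  have hinv : ∀ g, ∀ z ∈ A, ρ g z ∈ A := by
    intro g z hz
    rw [hall g z hz]
    change z.1 - avg Ψ z.2 + avg Ψ (σ g z.2) - avg Ψ (σ g z.2) ∈ J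
    rwa [add_sub_cancel_right]
  refine ⟨A, σ.ker, ?_, ?_, ?_, ?_, ?_⟩
  · have : Finite (G ⧸ σ.ker) :=
      Finite.of_equiv _ (QuotientGroup.quotientKerEquivRange σ).symm.toEquiv
    exact Subgroup.finiteIndex_of_finite_quotient
  · intro g hg z hz
    have hg1 : σ g = 1 := hg
    rw [hall g z hz, hg1]
    refine Prod.ext ?_ rfl
    change z.1 - avg Ψ z.2 + avg Ψ z.2 = z.1
    ring
  · intro g z
    refine ⟨hinv g z, fun h => ?_⟩
    have h1 := hinv g⁻¹ _ h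
    rw [← Equiv.Perm.mul_apply, ← map_mul, inv_mul_cancel, map_one] at h1
    exact h1
  · refine ⟨_, ⟨Band (hpos.toFinset.image fun p => b + p), ⟨_, rfl⟩, rp, hrp, rfl⟩, ?_⟩
    rintro ⟨x, v⟩ ⟨x', v'⟩ ⟨h1, h2⟩
    refine hb _ _ ?_
    have h3 := hrpos v v' h2
    have h4 := h1 (b + avg Ψ v) (Finset.mem_image_of_mem _ (hpos.mem_toFinset.2 ⟨v, rfl⟩))
    change b ≤ x - avg Ψ v ↔ b ≤ x' - avg Ψ v'
    rw [← h3, le_sub_iff_add_le, le_sub_iff_add_le]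
    exact h4
  · have h1 := hshift (Neg.neg '' Set.range (avg Ψ)) (hpos.image _) J hJ
    filter_upwards [h1] with x hx v
    have h2 := hx (-avg Ψ v) ⟨_, ⟨v, rfl⟩, rfl⟩
    rw [← sub_eq_add_neg] at h2
    exact h2

/-- **Reduction of the line to intervals.** -/
theorem line (hG : ∀ x : G, IsOfFinOrder x) (M : Set G) (hMf : M.Finite)
    (hgen : Subgroup.closure M = ⊤) (htab : RD.Tab M) (hDV : ∀ v, v ∈ DV)
    (ρ : G →* Equiv.Perm (ℝ × V)) (hPw : ∀ g, (regLine.prod F).Pw (ρ g))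
    (H1 : ∀ σ : G →* Equiv.Perm V, (∀ g, F.Pw (σ g)) → Finite σ.range)
    (H2 : ∀ (lam : ℝ) (σ : G →* Equiv.Perm (ℝ × V)),
      (∀ g x v, x ∉ Set.Ico 0 lam → σ g (x, v) = (x, v)) →
      (∀ g, ((regReal lam).prod F).Pw (σ g)) → Finite σ.range) : Finite ρ.range := by
  classical
  obtain ⟨A, N, hN, hNA, hA, ⟨r, hr, hrA⟩, hAl⟩ := line_end F hG M hMf hgen htab hDV ρ hPw H1 atTop
    (fun b => Or.inl (eventually_ge_atTop b)) (fun t => tendsto_atTop_add_const_right _ t tendsto_id)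
    (by
      intro C hC
      obtain ⟨a, ha⟩ := mem_atTop_sets.1 hC
      exact ⟨Set.Ici a, Ici_mem_atTop a, fun x hx => ha x hx, a, fun x y h => h⟩)
  obtain ⟨A', N', hN', hNA', hA', ⟨r', hr', hrA'⟩, hAl'⟩ := line_end F hG M hMf hgen htab hDV ρ hPw
    H1 atBot (fun b => Or.inr ((eventually_lt_atBot b).mono fun x hx => not_le.2 hx))
    (fun t => tendsto_atBot_add_const_right _ t tendsto_id)
    (by
      intro C hC
      obtain ⟨a, ha⟩ := mem_atBot_sets.1 hC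
      refine ⟨Set.Iio a, Iio_mem_atBot a, fun x hx => ha x (le_of_lt hx), a, fun x y h => ?_⟩
      rw [Set.mem_Iio, Set.mem_Iio, ← not_le, ← not_le, h])
  obtain ⟨β, hβ⟩ := (hAl.and (eventually_ge_atTop (0 : ℝ))).exists_forall_of_atTop
  obtain ⟨α, hα⟩ := (hAl'.and (eventually_le_atBot (0 : ℝ))).exists_forall_of_atBot
  -- the middle part
  let Mid : Set (ℝ × V) := {z | z ∉ A ∧ z ∉ A'}
  have hMid : ∀ g z, z ∈ Mid ↔ ρ g z ∈ Mid := by
    intro g z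
    exact and_congr (not_congr (hA g z)) (not_congr (hA' g z))
  have hMb : ∀ z ∈ Mid, α < z.1 ∧ z.1 < β := by
    rintro ⟨x, v⟩ ⟨h1, h2⟩
    constructor
    · by_contra hcon
      exact h2 ((hα x (not_lt.1 hcon)).1 v)
    · by_contra hcon
      exact h1 ((hβ x (not_lt.1 hcon)).1 v)
  obtain ⟨ρ', h1, h2⟩ := exists_restr ρ Mid hMid
  let E : (ℝ × V) ≃ (ℝ × V) :=
    { toFun := fun z => (z.1 - α, z.2)
      invFun := fun z => (z.1 + α, z.2)
      left_inv := fun z => Prod.ext (sub_add_cancel _ _) rfl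
      right_inv := fun z => Prod.ext (add_sub_cancel_right _ _) rfl }
  have hρ'f : Finite ρ'.range := by
    refine finite_of_cj E ρ' (H2 (β - α) _ ?_ ?_)
    · intro g x v hx
      change E (ρ' g (x + α, v)) = (x, v)
      rw [h2 g _ (fun h3 => hx ⟨by linarith [(hMb _ h3).1], by linarith [(hMb _ h3).2]⟩)]
      exact Prod.ext (add_sub_cancel_right _ _) rfl
    · intro g
      obtain ⟨s, hs, Q, hQ, h3⟩ := hPw g
      obtain ⟨s', hs', h4⟩ := (regLine.prod F).inf r hr r' hr'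
      obtain ⟨_, ⟨_, ⟨B, rfl⟩, t, ht, rfl⟩, h5⟩ := (regLine.prod F).inf s hs s' hs'
      refine ⟨_, ⟨Band (B.image fun b => b - α), ⟨_, rfl⟩, t, ht, rfl⟩, insert 1 Q, hQ.insert 1, ?_⟩
      rintro ⟨x, v⟩ -
      have hkey : ∀ z : ℝ × V, Band (B.image fun b => b - α) x z.1 → t v z.2 →
          s (x + α, v) (z.1 + α, z.2) ∧
            ((x + α, v) ∈ Mid ↔ ((z.1 + α, z.2) : ℝ × V) ∈ Mid) := by
        intro z hz1 hz2
        have hB : Band B (x + α) (z.1 + α) := by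
          intro b hb
          have h6 := hz1 (b - α) (Finset.mem_image_of_mem _ hb)
          rwa [sub_le_iff_le_add, sub_le_iff_le_add] at h6
        obtain ⟨h6, h7⟩ := h5 (x + α, v) ⟨trivial, hDV _⟩ (z.1 + α, z.2) ⟨trivial, hDV _⟩ ⟨hB, hz2⟩
        obtain ⟨h8, h9⟩ := h4 _ ⟨trivial, hDV _⟩ _ ⟨trivial, hDV _⟩ h7
        exact ⟨h6, and_congr (not_congr (hrA _ _ h8)) (not_congr (hrA' _ _ h9))⟩
      by_cases hm : (x + α, v) ∈ Mid
      · obtain ⟨q, hq, h6⟩ := h3 (x + α, v) ⟨trivial, hDV _⟩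
        refine ⟨q, Set.mem_insert_of_mem _ hq, ?_⟩
        rintro ⟨x', v'⟩ - ⟨h7, h8⟩
        obtain ⟨h9, h10⟩ := hkey (x', v') h7 h8
        have h11 := (h6 (x' + α, v') ⟨trivial, hDV _⟩ h9).1
        have h12 := (hMb _ ((hMid g _).1 (h10.1 hm)))
        have h13 : (ρ g (x' + α, v')).1 = x' + α + q.1.toAdd := congrArg Prod.fst h11
        refine ⟨?_, ⟨?_, ?_⟩, hDV _⟩
        · change E (ρ' g (x' + α, v')) = _
          rw [h1 g _ (h10.1 hm), h11]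
          refine Prod.ext ?_ rfl
          change x' + α + q.1.toAdd - α = x' + q.1.toAdd
          ring
        · change 0 ≤ x' + q.1.toAdd
          change α < (ρ g (x' + α, v')).1 ∧ _ at h12
          rw [h13] at h12
          linarith [h12.1]
        · change x' + q.1.toAdd < β - α
          change α < (ρ g (x' + α, v')).1 ∧ (ρ g (x' + α, v')).1 < β at h12
          rw [h13] at h12
          linarith [h12.2]
      · refine ⟨1, Set.mem_insert _ _, ?_⟩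
        rintro ⟨x', v'⟩ h14 ⟨h7, h8⟩
        obtain ⟨h9, h10⟩ := hkey (x', v') h7 h8
        rw [map_one]
        refine ⟨?_, h14⟩
        change E (ρ' g (x' + α, v')) = (x', v')
        rw [h2 g _ (fun h => hm (h10.2 h))]
        exact Prod.ext (add_sub_cancel_right _ _) rfl
  have hK : ρ'.ker.FiniteIndex := by
    have : Finite (G ⧸ ρ'.ker) :=
      Finite.of_equiv _ (QuotientGroup.quotientKerEquivRange ρ').symm.toEquiv
    exact Subgroup.finiteIndex_of_finite_quotient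
  refine finite_range_of_index ρ (ρ'.ker ⊓ (N ⊓ N')) inferInstance ?_
  rintro g ⟨hg, hgN, hgN'⟩
  apply Equiv.ext
  intro z
  by_cases hz : z ∈ A
  · exact hNA g hgN z hz
  · by_cases hz' : z ∈ A'
    · exact hNA' g hgN' z hz'
    · rw [← h1 g z ⟨hz, hz'⟩]
      have hg1 : ρ' g = 1 := hg
      rw [hg1]

end line

end Vale.Agent.P192.H479
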