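import Vale.Agent.P192.H479.RL0
import Vale.Agent.P192.H479.RL3

/-!
# P192: interval exchanges with a parameter: existence of the integral model
-/

namespace Vale.Agent.P192.H479

/-- images of points of `[0, lam) × V` -/
theorem mem_Ico_of {G : Type} [Group G] {V : Type} {lam : ℝ} (ρ : G →* Equiv.Perm (ℝ × V))
    (hout : ∀ g x v, x ∉ Set.Ico 0 lam → ρ g (x, v) = (x, v)) (g : G) {x : ℝ} (v : V)
    (h : 0 ≤ x ∧ x < lam) : 0 ≤ (ρ g (x, v)).1 ∧ (ρ g (x, v)).1 < lam := by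
  by_contra hcon
  have h1 : (ρ g (x, v)).1 ∉ Set.Ico 0 lam := hcon
  have h2 := hout g⁻¹ _ (ρ g (x, v)).2 h1
  rw [Prod.mk.eta, ← Equiv.Perm.mul_apply, ← map_mul, inv_mul_cancel, map_one] at h2
  rw [← h2] at h1
  exact h1 h

/-- **The integral model exists.** -/
theorem exists_RD {G : Type} [Group G] {V : Type} (M : Set G) (hMf : M.Finite) (hM1 : (1 : G) ∈ M)
    (lam : ℝ) (hlam : 0 < lam) (ρ : G →* Equiv.Perm (ℝ × V))
    (hout : ∀ g x v, x ∉ Set.Ico 0 lam → ρ g (x, v) = (x, v))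
    (B₀ T₀ : Set ℝ) (hB₀ : B₀.Finite) (hT₀ : T₀.Finite)
    (hpt : ∀ a ∈ M, ∀ v x, 0 ≤ x → x < lam → ∃ t ∈ T₀, ∃ w : V, ∀ y, 0 ≤ y → y < lam →
      (∀ b ∈ B₀, b ≤ x ↔ b ≤ y) → ρ a (y, v) = (y + t, w)) :
    ∃ D : RD G V, D.M = M ∧ D.L = lam ∧ D.ρ = ρ := by
  classical
  have hT : ∀ a ∈ M, ∀ v x, 0 ≤ x → x < lam → ∃ t ∈ T₀, (ρ a (x, v)).1 = x + t := by
    intro a ha v x h0 h1
    obtain ⟨t, ht, w, hw⟩ := hpt a ha v x h0 h1
    exact ⟨t, ht, by rw [hw x h0 h1 (fun b _ => Iff.rfl)]⟩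
  let B : Finset ℝ := insert 0 (insert lam (hB₀.toFinset.filter fun b => 0 ≤ b ∧ b ≤ lam))
  have hB0 : (0 : ℝ) ∈ B := Finset.mem_insert_self _ _
  have hBL : lam ∈ B := Finset.mem_insert_of_mem (Finset.mem_insert_self _ _)
  have hBge : ∀ b ∈ B, 0 ≤ b ∧ b ≤ lam := by
    intro b hb
    rw [Finset.mem_insert, Finset.mem_insert, Finset.mem_filter] at hb
    rcases hb with h | h | h
    · rw [h]; exact ⟨le_rfl, hlam.le⟩
    · rw [h]; exact ⟨hlam.le, le_rfl⟩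
    · exact h.2
  have hBpt : ∀ a ∈ M, ∀ v x y, 0 ≤ x → x < y → y < lam → (∀ b ∈ B, ¬ (x < b ∧ b ≤ y)) →
      (ρ a (y, v)).1 - (ρ a (x, v)).1 = y - x ∧ (ρ a (y, v)).2 = (ρ a (x, v)).2 := by
    intro a ha v x y hx hxy hy hb
    obtain ⟨t, ht, w, hw⟩ := hpt a ha v x hx (hxy.trans hy)
    have e1 := hw x hx (hxy.trans hy) (fun b _ => Iff.rfl)
    have e2 := hw y (hx.trans hxy.le) hy (fun b hbB => by
      refine ⟨fun h => h.trans hxy.le, fun h => ?_⟩
      by_contra hcon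
      push Not at hcon
      refine hb b ?_ ⟨hcon, h⟩
      refine Finset.mem_insert_of_mem (Finset.mem_insert_of_mem (Finset.mem_filter.2 ⟨?_, ?_⟩))
      · exact hB₀.mem_toFinset.2 hbB
      · exact ⟨hx.trans hcon.le, h.trans hy.le⟩)
    rw [e1, e2]
    exact ⟨by change y + t - (x + t) = y - x; ring, rfl⟩
  let C : Finset ℝ := (B ∪ (B ×ˢ hT₀.toFinset).image (fun z => z.1 - z.2)).filter
    fun c => 0 ≤ c ∧ c < lam
  have hCge : ∀ c ∈ C, 0 ≤ c ∧ c < lam := fun c hc => (Finset.mem_filter.1 hc).2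
  have hBC1 : ∀ b ∈ B, b < lam → b ∈ C := fun b hb h =>
    Finset.mem_filter.2 ⟨Finset.mem_union_left _ hb, (hBge b hb).1, h⟩
  have hBC : ∀ a ∈ M, ∀ v x, 0 ≤ x → x < lam → (ρ a (x, v)).1 ∈ B → x ∈ C := by
    intro a ha v x hx hxL hax
    obtain ⟨t, ht, e⟩ := hT a ha v x hx hxL
    refine Finset.mem_filter.2 ⟨Finset.mem_union_right _ (Finset.mem_image.2 ⟨(x + t, t), ?_, ?_⟩),
      hx, hxL⟩
    · rw [e] at hax
      exact Finset.mem_product.2 ⟨hax, hT₀.mem_toFinset.2 ht⟩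
    · change x + t - t = x
      ring
  let Z : Finset ℝ := insert lam (C ∪
    (C ×ˢ (hT₀.toFinset ×ˢ hT₀.toFinset)).image (fun z => z.1 + z.2.1 + z.2.2))
  have hZL : lam ∈ Z := Finset.mem_insert_self _ _
  have hZ0 : ∀ c ∈ C, c ∈ Z := fun c hc =>
    Finset.mem_insert_of_mem (Finset.mem_union_left _ hc)
  have hZC : ∀ c ∈ C, ∀ a ∈ M, ∀ b ∈ M, ∀ v, (ρ (a * b) (c, v)).1 ∈ Z := by
    intro c hc a ha b hb v
    obtain ⟨s, hs, es⟩ := hT b hb v c (hCge c hc).1 (hCge c hc).2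
    have h1 := mem_Ico_of ρ hout b v (hCge c hc)
    obtain ⟨t, ht, et⟩ := hT a ha (ρ b (c, v)).2 (ρ b (c, v)).1 h1.1 h1.2
    rw [Prod.mk.eta] at et
    refine Finset.mem_insert_of_mem (Finset.mem_union_right _ (Finset.mem_image.2
      ⟨(c, s, t), ?_, ?_⟩))
    · exact Finset.mem_product.2 ⟨hc, Finset.mem_product.2 ⟨hT₀.mem_toFinset.2 hs,
        hT₀.mem_toFinset.2 ht⟩⟩
    · change c + s + t = _
      rw [map_mul, Equiv.Perm.mul_apply, et, es]
  obtain ⟨ν, hν0, hν⟩ := H260.exists_nu Z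
  have hC0 : (0 : ℝ) ∈ C := hBC1 0 hB0 hlam
  have hp : ∀ k : ℤ, ∃ c : ℝ, 0 ≤ k → c ∈ C ∧ ν c ≤ k ∧ ∀ d ∈ C, ν d ≤ k → d ≤ c := by
    intro k
    by_cases hk : 0 ≤ k
    · obtain ⟨c, hc, hmax⟩ := Finset.exists_max_image (C.filter fun c => ν c ≤ k) id
        ⟨0, by rw [Finset.mem_filter]; exact ⟨hC0, by rw [hν0]; exact hk⟩⟩
      rw [Finset.mem_filter] at hc
      refine ⟨c, fun _ => ⟨hc.1, hc.2, fun d hd hdk => hmax d ?_⟩⟩
      rw [Finset.mem_filter]
      exact ⟨hd, hdk⟩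
    · exact ⟨0, fun h => absurd h hk⟩
  choose p hp using hp
  exact ⟨{ M := M
           one := hM1
           L := lam
           hL := hlam
           ρ := ρ
           out := hout
           B := B
           B0 := hB0
           BL := hBL
           Bge := hBge
           pt := hBpt
           C := C
           Cge := hCge
           BC := hBC
           BC1 := hBC1
           Z := (Z : Set ℝ)
           ZL := hZL
           ZC0 := hZ0
           ZC := hZC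
           ν := ν
           ν0 := hν0
           νpos := fun x hx y hy z hz w hw h => (hν x hx y hy z hz w hw).1 h
           νeq := fun x hx y hy z hz w hw h => (hν x hx y hy z hz w hw).2 h
           p := p
           pC := fun k hk => (hp k hk).1
           pν := fun k hk => (hp k hk).2.1
           pmax := fun k hk => (hp k hk).2.2 }, rfl, rfl, rfl⟩

end Vale.Agent.P192.H479
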