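import Vale.Agent.P192.H479.RL7
import Vale.Agent.P192.H567.AD

/-!
# P192: products of two intervals and counters
-/

namespace Vale.Agent.P192.H479

open Vale.Agent.P192.RL5 Vale.Agent.P192.H237

/-- the pieces of `[0, mu) × (W 0 × ... × W (k - 1))` -/
noncomputable abbrev FJW {k : ℕ} {W : Fin k → Type} (T : ∀ i, Equiv.Perm (W i)) (mu : ℝ) :
    Reg (prodAct trans (actW T))
      {z : ℝ × (∀ i, W i) | z.1 ∈ Set.Ico 0 mu ∧ z.2 ∈ Set.univ} :=
  (regReal mu).prod (regW T)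

/-- groups with free subgroups of finite rank and finite index have asymptotic dimension at most
one -/
theorem twocol_of_vfree (M : Type) [Group M]
    (hM : ∃ (Γ : Subgroup M) (k : ℕ), Γ.FiniteIndex ∧ Nonempty (Γ ≃* FreeGroup (Fin k))) :
    ∀ E : Set M, E.Finite → ∃ m : ℕ, ∃ C : Set M, ∀ x : M,
      {y | Relation.ReflTransGen (fun a b => (a ∈ C ↔ b ∈ C) ∧ ∃ e ∈ E, b = e * a) x y}.encard ≤ m := by
  obtain ⟨Γ, k, hΓ, ⟨e⟩⟩ := hM
  exact fun E hE => Vale.Agent.P192.H567.ad_vfree M Γ k e E hE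

/-- `A2k` for generators and for the order `tree, interval, counters` -/
theorem int_reg (hPie : PieG) (hThr : Thr) {k : ℕ} {W : Fin k → Type} (G : Type) [Group G]
    [Group.IsFinitelyPresented G] (hG : ∀ x : G, IsOfFinOrder x) (M₀ : Set G)
    (hgen : Subgroup.closure M₀ = ⊤) (T : ∀ i, Equiv.Perm (W i)) (mu : ℝ)
    (M : Type) [Group M]
    (hM : ∃ (Γ : Subgroup M) (k : ℕ), Γ.FiniteIndex ∧ Nonempty (Γ ≃* FreeGroup (Fin k)))
    (V' : Type) [MulAction M V'] (hV : ∀ (x : M) (v : V'), x • v = v → x = 1)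
    (Φ : G →* Equiv.Perm (V' × (ℝ × (∀ i, W i)))) (β : Type) (b : V' → β)
    (KM : Set M) (hKM : KM.Finite)
    (h : ∀ a ∈ M₀, ∃ r ∈ (FJW T mu).R, ∃ Q : Set (Multiplicative ℝ × (Fin k → Multiplicative ℤ)),
      Q.Finite ∧ ∀ v : ℝ × (∀ i, W i), v.1 ∈ Set.Ico 0 mu → ∀ j : β, ∃ q ∈ Q, ∃ x ∈ KM,
        ∀ v' : ℝ × (∀ i, W i), v'.1 ∈ Set.Ico 0 mu → r v v' → ∀ z, b z = j →
          Φ a (z, v') = (x • z, prodAct trans (actW T) q v') ∧
            (prodAct trans (actW T) q v').1 ∈ Set.Ico 0 mu)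
    (hD : ∀ a ∈ M₀, ∀ z v, v.1 ∉ Set.Ico 0 mu → Φ a (z, v) = (z, v)) :
    Finite Φ.range := by
  classical
  let E : (V' × (ℝ × (∀ i, W i))) ≃ (ℝ × (V' × (∀ i, W i))) :=
    { toFun := fun z => (z.2.1, z.1, z.2.2)
      invFun := fun z => (z.2.1, z.1, z.2.2)
      left_inv := fun z => rfl
      right_inv := fun z => rfl }
  refine finite_of_cj E Φ ?_
  have hin : ∀ a ∈ M₀, ∀ z : ℝ × (V' × (∀ i, W i)), z.1 ∈ Set.Ico 0 mu →
      (((cj E).comp Φ) a z).1 ∈ Set.Ico 0 mu := by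
    intro a ha z hz
    obtain ⟨r, hr, Q, hQ, h2⟩ := h a ha
    obtain ⟨q, hq, x, hx, h3⟩ := h2 (z.1, z.2.2) hz (b z.2.1)
    obtain ⟨h4, h5⟩ := h3 (z.1, z.2.2) hz ((FJW T mu).refl r hr _ ⟨hz, trivial⟩) z.2.1 rfl
    change (E (Φ a (z.2.1, (z.1, z.2.2)))).1 ∈ _
    rw [h4]
    exact h5
  have hno : ∀ a ∈ M₀, ∀ z : ℝ × (V' × (∀ i, W i)), z.1 ∉ Set.Ico 0 mu →
      ((cj E).comp Φ) a z = z := by
    intro a ha z hz
    change E (Φ a (z.2.1, (z.1, z.2.2))) = z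
    rw [hD a ha _ _ hz]
    rfl
  have hout : ∀ g x v, x ∉ Set.Ico 0 mu → ((cj E).comp Φ) g (x, v) = (x, v) := by
    refine gen_induct hgen ?_ ?_ ?_ ?_
    · intro a ha x v hx
      exact hno a ha (x, v) hx
    · intro x v _
      rw [map_one]
      rfl
    · intro a b ha hb x v hx
      rw [map_mul, Equiv.Perm.mul_apply, hb x v hx, ha x v hx]
    · intro a ha x v hx
      have h1 := ha x v hx
      conv_lhs => rw [← h1]
      rw [← Equiv.Perm.mul_apply, ← map_mul, inv_mul_cancel, map_one]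
      rfl
  have hPw := Reg.Pw.all (F := (regReal mu).prod (FUW M V' T)) hgen ((cj E).comp Φ) (by
    intro a ha z
    constructor
    · rintro ⟨h1, -⟩
      exact ⟨hin a ha z h1, trivial, trivial⟩
    · rintro ⟨h1, -⟩
      by_contra hcon
      have hz : z.1 ∉ Set.Ico 0 mu := fun h2 => hcon ⟨h2, trivial, trivial⟩
      rw [hno a ha z hz] at h1
      exact hz h1) (by
    intro a ha
    obtain ⟨r, hr, Q, hQ, h2⟩ := h a ha
    obtain ⟨_, ⟨B, rfl⟩, _, ⟨m, c, rfl⟩, rfl⟩ := hr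
    refine ⟨_, ⟨Band B, ⟨B, rfl⟩, _, ⟨_, rfl, _, ⟨m, c, rfl⟩, rfl⟩, rfl⟩,
      Set.image2 (fun (q : Multiplicative ℝ × (Fin k → Multiplicative ℤ)) (x : M) =>
        (q.1, (x, q.2))) Q KM, hQ.image2 _ hKM, ?_⟩
    rintro ⟨x, z, w⟩ ⟨hx, -⟩
    obtain ⟨q, hq, y, hy, h3⟩ := h2 (x, w) hx (b z)
    refine ⟨_, ⟨q, hq, y, hy, rfl⟩, ?_⟩
    rintro ⟨x', z', w'⟩ ⟨hx', -⟩ ⟨h4, h5, h6⟩
    have h5 : z = z' := h5
    subst h5
    obtain ⟨h7, h8⟩ := h3 (x', w') hx' ⟨h4, h6⟩ z rfl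
    refine ⟨?_, h8, trivial, trivial⟩
    change E (Φ a (z, (x', w'))) = _
    rw [h7]
    rfl)
  exact A2k hPie hThr G hG (twocol_of_vfree M hM) hV T mu _ hout hPw.2

/-- **Products of two intervals and counters.** -/
theorem A1k (hPie : PieG) (hThr : Thr) {k : ℕ} {W : Fin k → Type} (G : Type) [Group G]
    [Group.IsFinitelyPresented G] (hG : ∀ x : G, IsOfFinOrder x)
    (T : ∀ i, Equiv.Perm (W i)) (lam mu : ℝ)
    (ρ : G →* Equiv.Perm (ℝ × (ℝ × (∀ i, W i))))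
    (hout : ∀ g x v, (x ∉ Set.Ico 0 lam ∨ v.1 ∉ Set.Ico 0 mu) → ρ g (x, v) = (x, v))
    (hPw : ∀ g, ((regReal lam).prod (FJW T mu)).Pw (ρ g)) : Finite ρ.range := by
  classical
  rcases le_or_gt lam 0 with hlam | hlam
  · have h1 : ∀ g, ρ g = 1 := by
      intro g
      apply Equiv.ext
      rintro ⟨x, u⟩
      refine hout g x u (Or.inl ?_)
      rintro ⟨h2, h3⟩
      linarith
    have : Subsingleton ρ.range := by
      refine ⟨?_⟩
      rintro ⟨_, g, rfl⟩ ⟨_, g', rfl⟩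
      apply Subtype.ext
      change ρ g = ρ g'
      rw [h1, h1]
    infer_instance
  obtain ⟨M, hMf, hM1, hMinv, hgen, htab⟩ := H260.exists_table G
  obtain ⟨R, hRf, Φ, β, hβ, b, KM, hKM, hΦρ, hΦM, hΦD⟩ := lift_gen hPie hG M hMf hM1 hgen htab lam
    hlam (FJW T mu) ρ (fun g x v h => hout g x v (by
      rcases h with h | h
      · exact Or.inl h
      · exact Or.inr (fun h1 => h ⟨h1, trivial⟩))) (fun a _ => hPw a) (by
    intro P _ _ Ψ0 h1 h1D
    let _ : Fintype P := Fintype.ofFinite _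
    have hn : NeZero (Fintype.card P) := ⟨Fintype.card_ne_zero⟩
    let QG : Type := Multiplicative (ZMod (Fintype.card P))
    have hQf : Finite QG := inferInstanceAs (Finite (ZMod (Fintype.card P)))
    let e : P ≃ QG := (Fintype.equivOfCardEq (by rw [ZMod.card])).trans
      (Multiplicative.ofAdd (α := ZMod (Fintype.card P)))
    let E : (P × (ℝ × (∀ i, W i))) ≃ (QG × (ℝ × (∀ i, W i))) := e.prodCongr (Equiv.refl _)
    refine finite_of_cj E Ψ0 ?_
    refine int_reg hPie hThr G hG M hgen T mu QG (vfree_fin QG) QG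
      (fun x v h => mul_eq_right.1 h) _ QG id Set.univ Set.finite_univ ?_ ?_
    · intro a ha
      obtain ⟨r, hr, Q, hQ, h2⟩ := h1 a ha
      refine ⟨r, hr, Q, hQ, fun v hv j => ?_⟩
      obtain ⟨q, hq, p', h3⟩ := h2 (e.symm j) v ⟨hv, trivial⟩
      refine ⟨q, hq, e p' * j⁻¹, Set.mem_univ _, fun v' hv' hvv z hz => ?_⟩
      have hz : z = j := hz
      subst hz
      obtain ⟨h4, h5⟩ := h3 v' ⟨hv', trivial⟩ hvv
      refine ⟨?_, h5.1⟩
      change E (Ψ0 a (e.symm z, v')) = _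
      rw [h4]
      refine Prod.ext ?_ rfl
      change e p' = e p' * z⁻¹ * z
      rw [inv_mul_cancel_right]
    · intro a ha z v hv
      change E (Ψ0 a (e.symm z, v)) = _
      rw [h1D a ha (e.symm z) v (fun h2 => hv h2.1)]
      refine Prod.ext ?_ rfl
      exact e.apply_symm_apply z)
  have hRfin : Finite R := hRf
  let _ := Iet.fact (RD.tau R)
  have hΦf : Finite Φ.range := by
    refine int_reg hPie hThr G hG M hgen T mu (FreeGroup R) (vfree_free R)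
      (ℝ × FreeGroup R) ?_ Φ β b KM hKM ?_ ?_
    · intro f z hz
      have h1 : f * z.2 = z.2 := congrArg Prod.snd hz
      exact mul_eq_right.1 h1
    · intro a ha
      obtain ⟨r, hr, Q, hQ, h2⟩ := hΦM a ha
      refine ⟨r, hr, Q, hQ, fun v hv j => ?_⟩
      obtain ⟨q, hq, x, hx, h3⟩ := h2 v ⟨hv, trivial⟩ j
      refine ⟨q, hq, x, hx, fun v' hv' hvv z hz => ?_⟩
      obtain ⟨h4, h5⟩ := h3 v' ⟨hv', trivial⟩ hvv z hz
      exact ⟨h4, h5.1⟩
    · intro a ha z v hv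
      exact hΦD a ha z v (fun h2 => hv h2.1)
  exact finite_range_of_ker Φ ρ hΦf hΦρ

end Vale.Agent.P192.H479
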