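import Vale.Agent.P192.H479.RL8
import Vale.Agent.P192.H479.StmtRE
import Vale.Agent.P192.H794.PieG
import Vale.Agent.P192.H823.Thr
import Vale.Agent.P192.H176.Clo

/-!
# P192: rectangle exchanges, explicit form
-/

namespace Vale.Agent.P192.H479

open Vale.Agent.P192.RL5 Vale.Agent.P192.H237

theorem pieG : PieG := by
  intro G V H _ _ D act DV F hgen Ψ _ h1 hΨ hM hD
  exact H794.pieg D F hgen Ψ h1 hΨ hM hD

/-- **Free action, counters, interval.** -/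
theorem main_one (G : Type) [Group G] [Group.IsFinitelyPresented G]
    (hG : ∀ x : G, IsOfFinOrder x) (S : Set G) (hS : Subgroup.closure S = ⊤)
    (L : Type) [Group L]
    (hL : ∀ E : Set L, E.Finite → ∃ m : ℕ, ∃ C : Set L, ∀ x : L,
      {y | Relation.ReflTransGen (fun a b => (a ∈ C ↔ b ∈ C) ∧ ∃ e ∈ E, b = e * a) x y}.encard ≤ m)
    (U : Type) [MulAction L U] (hU : ∀ (l : L) (u : U), l • u = u → l = 1)
    (k : ℕ) (W : Fin k → Type) (T : ∀ i, Equiv.Perm (W i)) (lam : ℝ)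
    (ρ : G →* Equiv.Perm (U × (∀ i, W i) × ℝ))
    (hout : ∀ s ∈ S, ∀ u w x, x ∉ Set.Ico 0 lam → ρ s (u, w, x) = (u, w, x))
    (hρ : ∀ s ∈ S, ∃ (m : ℕ) (c : ∀ i, W i → Fin m) (B : Finset ℝ)
      (K : Set (L × (Fin k → ℤ) × ℝ)), K.Finite ∧ ∀ (u : U) (w : ∀ i, W i), ∀ x ∈ Set.Ico 0 lam,
        ∃ q ∈ K, ∀ w' : ∀ i, W i, (∀ i, c i (w i) = c i (w' i)) → ∀ x' ∈ Set.Ico 0 lam, Same B x x' →
          ρ s (u, w', x') = (q.1 • u, fun i => (T i ^ q.2.1 i) (w' i), x' + q.2.2)) :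
    Finite ρ.range := by
  classical
  let E : (U × (∀ i, W i) × ℝ) ≃ (ℝ × (U × (∀ i, W i))) :=
    { toFun := fun z => (z.2.2, z.1, z.2.1)
      invFun := fun z => (z.2.1, z.2.2, z.1)
      left_inv := fun z => rfl
      right_inv := fun z => rfl }
  refine finite_of_cj E ρ ?_
  set ρ' := (cj E).comp ρ with hρ'
  have hno : ∀ s ∈ S, ∀ z : ℝ × (U × (∀ i, W i)), z.1 ∉ Set.Ico 0 lam → ρ' s z = z := by
    intro s hs z hz
    change E (ρ s (z.2.1, z.2.2, z.1)) = z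
    rw [hout s hs _ _ _ hz]
    rfl
  have hin : ∀ s ∈ S, ∀ z : ℝ × (U × (∀ i, W i)), z.1 ∈ Set.Ico 0 lam →
      (ρ' s z).1 ∈ Set.Ico 0 lam := by
    intro s hs z hz
    by_contra hcon
    have h1 := hno s hs (ρ' s z) hcon
    have h2 := (ρ' s).injective h1
    rw [h2] at hcon
    exact hcon hz
  have hout' : ∀ g x v, x ∉ Set.Ico 0 lam → ρ' g (x, v) = (x, v) := by
    refine gen_induct hS ?_ ?_ ?_ ?_
    · intro a ha x v hx
      exact hno a ha (x, v) hx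
    · intro x v _
      rw [map_one]
      rfl
    · intro a b ha hb x v hx
      rw [map_mul, Equiv.Perm.mul_apply, hb x v hx, ha x v hx]
    · intro a ha x v hx
      have h1 := ha x v hx
      conv_lhs => rw [← h1]
      rw [← Equiv.Perm.mul_apply, ← map_mul, inv_mul_cancel, map_one]
      rfl
  have hPw := Reg.Pw.all (F := (regReal lam).prod (FUW L U T)) hS ρ' (by
    intro a ha z
    constructor
    · rintro ⟨h1, -⟩
      exact ⟨hin a ha z h1, trivial, trivial⟩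
    · rintro ⟨h1, -⟩
      by_contra hcon
      have hz : z.1 ∉ Set.Ico 0 lam := fun h2 => hcon ⟨h2, trivial, trivial⟩
      rw [hno a ha z hz] at h1
      exact hz h1) (by
    intro a ha
    obtain ⟨m, c, B, K, hK, h2⟩ := hρ a ha
    refine ⟨_, ⟨Band B, ⟨B, rfl⟩, _, ⟨_, rfl, _, ⟨m, c, rfl⟩, rfl⟩, rfl⟩,
      (fun q : L × (Fin k → ℤ) × ℝ =>
        (Multiplicative.ofAdd q.2.2, (q.1, fun i => Multiplicative.ofAdd (q.2.1 i)))) '' K,
      hK.image _, ?_⟩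
    rintro ⟨x, u, w⟩ ⟨hx, -⟩
    obtain ⟨q, hq, h3⟩ := h2 u w x hx
    refine ⟨_, ⟨q, hq, rfl⟩, ?_⟩
    rintro ⟨x', u', w'⟩ ⟨hx', -⟩ ⟨h4, h5, h6⟩
    have h5 : u = u' := h5
    subst h5
    have h7 := h3 w' h6 x' hx' h4
    have e1 : ρ' a (x', u, w') = (x' + q.2.2, q.1 • u, fun i => (T i ^ q.2.1 i) (w' i)) := by
      change E (ρ a (u, w', x')) = _
      rw [h7]
      rfl
    refine ⟨e1, ?_, trivial, trivial⟩
    have h8 := hin a ha (x', u, w') hx'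
    rw [e1] at h8
    exact h8)
  exact A2k pieG H823.thr G hG hL hU T lam ρ' hout' hPw.2

/-- **Two intervals, counters.** -/
theorem main_two (G : Type) [Group G] [Group.IsFinitelyPresented G]
    (hG : ∀ x : G, IsOfFinOrder x) (S : Set G) (hS : Subgroup.closure S = ⊤)
    (k : ℕ) (W : Fin k → Type) (T : ∀ i, Equiv.Perm (W i)) (lam mu : ℝ)
    (ρ : G →* Equiv.Perm (ℝ × (∀ i, W i) × ℝ))
    (hout : ∀ s ∈ S, ∀ x w y, (x ∉ Set.Ico 0 lam ∨ y ∉ Set.Ico 0 mu) →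
      ρ s (x, w, y) = (x, w, y))
    (hρ : ∀ s ∈ S, ∃ (m : ℕ) (c : ∀ i, W i → Fin m) (B : Finset ℝ)
      (K : Set (ℝ × (Fin k → ℤ) × ℝ)), K.Finite ∧
        ∀ x ∈ Set.Ico 0 lam, ∀ w : ∀ i, W i, ∀ y ∈ Set.Ico 0 mu, ∃ q ∈ K,
          ∀ x' ∈ Set.Ico 0 lam, Same B x x' → ∀ w' : ∀ i, W i, (∀ i, c i (w i) = c i (w' i)) → ∀ y' ∈ Set.Ico 0 mu, Same B y y' →
          ρ s (x', w', y') = (x' + q.1, fun i => (T i ^ q.2.1 i) (w' i), y' + q.2.2)) :
    Finite ρ.range := by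
  classical
  let E : (ℝ × (∀ i, W i) × ℝ) ≃ (ℝ × (ℝ × (∀ i, W i))) :=
    { toFun := fun z => (z.1, z.2.2, z.2.1)
      invFun := fun z => (z.1, z.2.2, z.2.1)
      left_inv := fun z => rfl
      right_inv := fun z => rfl }
  refine finite_of_cj E ρ ?_
  set ρ' := (cj E).comp ρ with hρ'
  have hno : ∀ s ∈ S, ∀ z : ℝ × (ℝ × (∀ i, W i)),
      ¬ (z.1 ∈ Set.Ico 0 lam ∧ z.2.1 ∈ Set.Ico 0 mu) → ρ' s z = z := by
    intro s hs z hz
    change E (ρ s (z.1, z.2.2, z.2.1)) = z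
    rw [hout s hs _ _ _ (not_and_or.1 hz)]
    rfl
  have hin : ∀ s ∈ S, ∀ z : ℝ × (ℝ × (∀ i, W i)),
      (z.1 ∈ Set.Ico 0 lam ∧ z.2.1 ∈ Set.Ico 0 mu) →
      ((ρ' s z).1 ∈ Set.Ico 0 lam ∧ (ρ' s z).2.1 ∈ Set.Ico 0 mu) := by
    intro s hs z hz
    by_contra hcon
    have h1 := hno s hs (ρ' s z) hcon
    have h2 := (ρ' s).injective h1
    rw [h2] at hcon
    exact hcon hz
  have hout' : ∀ g x v, (x ∉ Set.Ico 0 lam ∨ v.1 ∉ Set.Ico 0 mu) → ρ' g (x, v) = (x, v) := by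
    refine gen_induct hS ?_ ?_ ?_ ?_
    · intro a ha x v hx
      exact hno a ha (x, v) (not_and_or.2 hx)
    · intro x v _
      rw [map_one]
      rfl
    · intro a b ha hb x v hx
      rw [map_mul, Equiv.Perm.mul_apply, hb x v hx, ha x v hx]
    · intro a ha x v hx
      have h1 := ha x v hx
      conv_lhs => rw [← h1]
      rw [← Equiv.Perm.mul_apply, ← map_mul, inv_mul_cancel, map_one]
      rfl
  have hPw := Reg.Pw.all (F := (regReal lam).prod (FJW T mu)) hS ρ' (by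
    intro a ha z
    constructor
    · rintro ⟨h1, h2, -⟩
      have := hin a ha z ⟨h1, h2⟩
      exact ⟨this.1, this.2, trivial⟩
    · rintro ⟨h1, h2, -⟩
      by_contra hcon
      have hz : ¬ (z.1 ∈ Set.Ico 0 lam ∧ z.2.1 ∈ Set.Ico 0 mu) :=
        fun h2 => hcon ⟨h2.1, h2.2, trivial⟩
      rw [hno a ha z hz] at h1 h2
      exact hz ⟨h1, h2⟩) (by
    intro a ha
    obtain ⟨m, c, B, K, hK, h2⟩ := hρ a ha
    refine ⟨_, ⟨Band B, ⟨B, rfl⟩, _, ⟨_, ⟨B, rfl⟩, _, ⟨m, c, rfl⟩, rfl⟩, rfl⟩,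
      (fun q : ℝ × (Fin k → ℤ) × ℝ =>
        (Multiplicative.ofAdd q.1, (Multiplicative.ofAdd q.2.2,
          fun i => Multiplicative.ofAdd (q.2.1 i)))) '' K,
      hK.image _, ?_⟩
    rintro ⟨x, y, w⟩ ⟨hx, hy, -⟩
    obtain ⟨q, hq, h3⟩ := h2 x hx w y hy
    refine ⟨_, ⟨q, hq, rfl⟩, ?_⟩
    rintro ⟨x', y', w'⟩ ⟨hx', hy', -⟩ ⟨h4, h5, h6⟩
    have h7 := h3 x' hx' h4 w' h6 y' hy' h5
    have e1 : ρ' a (x', y', w') = (x' + q.1, y' + q.2.2, fun i => (T i ^ q.2.1 i) (w' i)) := by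
      change E (ρ a (x', w', y')) = _
      rw [h7]
      rfl
    have h8 := hin a ha (x', y', w') ⟨hx', hy'⟩
    rw [e1] at h8
    exact ⟨e1, h8.1, h8.2, trivial⟩)
  exact A1k pieG H823.thr G hG T lam mu ρ' hout' hPw.2

end Vale.Agent.P192.H479
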